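import Crest.Agent.N255.Wn.Ph

/-!
# Row 255 (helper46): block B2.  Detection on stars and windows by absolute classes, moving and killing caps;
everything on families of small simplices.
-/

set_option autoImplicit false
open Set Filter Topology

noncomputable section

namespace Crest.Agent.N255.Wn

open Crest.Agent.N255.Tp Crest.Agent.N255.Wi

variable {X : Type} [TopologicalSpace X] {k : Type} [Field k] {n i j d : ℕ} {𝒰 𝒞 : Set (Set X)}
  {U W F K : Set X} {M : Type} [AddCommGroup M] [Module k M]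

/-- small simplices in `A` -/
abbrev SB (𝒞 : Set (Set X)) (A : Set X) : Sb X := (On A).inf (Sm 𝒞)

theorem SB_mono (h : U ⊆ W) : (SB 𝒞 U).Le (SB 𝒞 W) :=
  Sb.le_inf (Sb.inf_le_left.trans (On_le h)) Sb.inf_le_right

theorem SB_fr {σ : Sx n X} (h : σ ∈ (SB 𝒞 U).S n) (i : ℕ) : fr i σ ∈ (SB 𝒞 U).S i :=
  ⟨(range_fr _ σ).trans h.1, h.2.imp fun _ h => ⟨h.1, (range_fr _ σ).trans h.2⟩⟩

theorem SB_bk {σ : Sx n X} (h : σ ∈ (SB 𝒞 U).S n) (i : ℕ) : bk i σ ∈ (SB 𝒞 U).S i :=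
  ⟨(range_bk _ σ).trans h.1, h.2.imp fun _ h => ⟨h.1, (range_bk _ σ).trans h.2⟩⟩

theorem wall_compl (A : Set X) (z : Ch k (n + 1) X) : wall Aᶜ z = -wall A z := by
  have : cut k Aᶜ = (fun _ => 1) - cut k A := by
    funext σ
    by_cases h : σ (stdSimplex.vertex 0) ∈ A
    · have h' : range σ ⊆ A := by rw [Tp.range_zero]; exact singleton_subset_iff.2 h
      simp [cut_one h', cut_zero (A := Aᶜ) (by rwa [compl_compl])]
    · have h' : range σ ⊆ Aᶜ := by rw [Tp.range_zero]; exact singleton_subset_iff.2 h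
      simp [cut_one h', cut_zero h']
  rw [wall, wall, this, map_sub, cob_one, zero_sub]
  exact cD.neg _ _

/-- the period `⟨h ∪ f, y⟩` -/
def per (n : ℕ) (h : Co k i X) (f : Co M j X) (y : Ch k n X) : M := ev k (cup (LinearMap.lsmul k M) n h f) y

/-- the period `⟨f ∪ h, y⟩` -/
def per' (n : ℕ) (h : Co k i X) (f : Co M j X) (y : Ch k n X) : M :=
  ev k (cup (LinearMap.lsmul k M).flip n f h) y

theorem per_eq (h : Co k i X) (f : Co M j X) (y : Ch k n X) : per n h f y = ev k f (cap j h y) :=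
  ch_ext' (T := (ev k f).comp (cap j h)) (fun σ => by simp [cup, cap]) y

theorem per'_eq (h : Co k i X) (f : Co M j X) (y : Ch k n X) : per' n h f y = ev k f (cap' j h y) :=
  ch_ext' (T := (ev k f).comp (cap' j h)) (fun σ => by simp [cup, cap']) y

theorem per_mul (h : Co k i X) (f : Co k j X) (y : Ch k n X) :
    per n h f y = ev k (cup (LinearMap.mul k k) n h f) y := by rw [per_eq, ev_cup]

theorem per_add (h h' : Co k i X) (f : Co M j X) (y : Ch k n X) :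
    per n (h + h') f y = per n h f y + per n h' f y := by
  rw [per_eq, per_eq, per_eq, ← map_add]; exact congrArg _ (cD'.add _ _ _)

theorem per_smul (a : k) (h : Co k i X) (f : Co M j X) (y : Ch k n X) :
    per n (a • h) f y = a • per n h f y := by
  rw [per_eq, per_eq, ← map_smul]; exact congrArg _ (cD'.smul _ _ _)

theorem per_sub_r (h : Co k i X) (f f' : Co M j X) (y : Ch k n X) :
    per n h (f - f') y = per n h f y - per n h f' y := by rw [per_eq, per_eq, per_eq, ev_sub]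

theorem per_map {M' : Type} [AddCommGroup M'] [Module k M'] (T : M →ₗ[k] M') (h : Co k i X)
    (f : Co M j X) (y : Ch k n X) : T (per n h f y) = per n h (fun σ => T (f σ)) y := by
  rw [per_eq, per_eq, map_ev]

/-- periods of a cochain with values in `J` -/
theorem per_mem (J : Submodule k M) (h : Co k i X) {f : Co M j X} (hf : ∀ σ ∈ (SB 𝒞 U).S j, f σ ∈ J)
    {y : Ch k n X} (hy : y ∈ (SB 𝒞 U).ch k n) : per n h f y ∈ J :=
  Sb.ev_mem _ J (fun _ hσ => J.smul_mem _ (hf _ (SB_bk hσ j))) hy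

theorem per_van {h : Co k i X} (hh : h ∈ (SB 𝒞 U).van k k i) (f : Co M j X) {y : Ch k n X}
    (hy : y ∈ (SB 𝒞 U).ch k n) : per n h f y = 0 :=
  Sb.ev_eq_zero (fun σ hσ => by simp [cup, hh _ (SB_fr hσ i)]) hy

theorem per_congr {h h' : Co k i X} (hh : h - h' ∈ (SB 𝒞 U).van k k i) (f : Co M j X) {y : Ch k n X}
    (hy : y ∈ (SB 𝒞 U).ch k n) : per n h f y = per n h' f y := by
  rw [← sub_add_cancel h h', per_add, per_van hh f hy, zero_add]

/-- Stokes -/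
theorem per_bd (hn : i + j = n) (h : Co k i X) (f : Co M j X) (y : Ch k (n + 1) X) :
    per n h f (bd k y) = per (n + 1) (cob k h) f y + (-1 : k) ^ i • per (n + 1) h (cob k f) y := by
  rw [per, ev_bd, cupS_holds k _ _ _ _ X i j n hn, ev_add, ev_smul, per, per]

/-- small null chains of a pair -/
theorem RN_sm (ho : ∀ C ∈ 𝒞, IsOpen C) (hc : univ ⊆ ⋃₀ 𝒞) {c : Ch k n X} (h : c ∈ RN k W F n)
    (hs : c ∈ (Sm 𝒞).ch k n) : ∃ b ∈ (SB 𝒞 W).ch k (n + 1), ∃ y ∈ (SB 𝒞 F).ch k n, c = bd k b + y := by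
  obtain ⟨_, ⟨b, hb, rfl⟩, y, hy, rfl⟩ := Submodule.mem_sup.1 h
  exact ⟨_, Sml.rho_inf k ho ((subset_univ _).trans hc) hb, _,
    Sml.rho_inf k ho ((subset_univ _).trans hc) hy, by rw [Sml.bd_rho, ← map_add, Sml.rho_of_sm k 𝒞 hs]⟩

/-- MOVE, abstract -/
theorem move_RN (ho : ∀ C ∈ 𝒞, IsOpen C) (hc : univ ⊆ ⋃₀ 𝒞) (hn : i + j = n) (J : Submodule k M)
    {h : Co k i X} (hh : h ∈ (SB 𝒞 W).Z k k i) {f : Co M j X}
    (f1 : ∀ σ ∈ (SB 𝒞 W).S (j + 1), cob k f σ ∈ J) (f2 : ∀ σ ∈ (SB 𝒞 F).S j, f σ ∈ J)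
    {y y' : Ch k n X} (hy : y ∈ (Sm 𝒞).ch k n) (hy' : y' ∈ (Sm 𝒞).ch k n) (e : y - y' ∈ RN k W F n) :
    per n h f y - per n h f y' ∈ J := by
  obtain ⟨b, hb, c, hc, e⟩ := RN_sm ho hc e (Submodule.sub_mem _ hy hy')
  have : per n h f y - per n h f y' = per n h f (bd k b) + per n h f c := by
    simp only [per, ← map_sub, e, map_add]
  rw [this, per_bd hn, per_van hh f hb, zero_add]
  exact J.add_mem (J.smul_mem _ (per_mem J h f1 hb)) (per_mem J h f2 hc)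

/-- DIE, abstract -/
theorem die_RN (hn : i + j = n) (J : Submodule k M) {h : Co k (i + 1) X}
    (hh : h ∈ (SB 𝒞 W).Ex k k (i + 1)) {f : Co M j X} (f1 : ∀ σ ∈ (SB 𝒞 W).S (j + 1), cob k f σ ∈ J)
    (f2 : ∀ σ ∈ (SB 𝒞 F).S j, f σ ∈ J) {y : Ch k (n + 1) X} (hy : y ∈ (SB 𝒞 W).ch k (n + 1))
    (hb : bd k y ∈ (SB 𝒞 F).ch k n) : per (n + 1) h f y ∈ J := by
  obtain ⟨η, hη⟩ := Sb.mem_Ex.1 hh
  rw [per_congr hη f hy, ← add_sub_cancel_right (per (n + 1) (cob k η) f y) _, ← per_bd hn]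
  exact J.sub_mem (per_mem J η f2 hb) (J.smul_mem _ (per_mem J η f1 hy))

/-- commutation, abstract -/
theorem com_RN (hn : i + j = n + 1) (J : Submodule k M) {h : Co k i X} (hh : h ∈ (SB 𝒞 W).Z k k i)
    {f : Co M j X} (f1 : ∀ σ ∈ (SB 𝒞 W).S (j + 1), cob k f σ ∈ J) (f2 : ∀ σ ∈ (SB 𝒞 F).S j, f σ ∈ J)
    {y : Ch k (n + 1) X} (hy : y ∈ (SB 𝒞 W).ch k (n + 1)) (hb : bd k y ∈ (SB 𝒞 F).ch k n) :
    per (n + 1) h f y - (-1 : k) ^ (i * j) • per' (n + 1) h f y ∈ J := by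
  have := ev_cup_comm (LinearMap.lsmul k (M ⧸ J)) hn (ψ := fun σ => J.mkQ (f σ)) hh
    (fun σ hσ => by rw [cob_map]; exact (Submodule.Quotient.mk_eq_zero J).2 (f1 σ hσ))
    (Or.inr fun σ hσ => (Submodule.Quotient.mk_eq_zero J).2 (f2 σ hσ)) hy hb
  rw [← Submodule.Quotient.mk_eq_zero, ← Submodule.mkQ_apply, map_sub, map_smul, per_map, per'_eq,
    map_ev, ← per'_eq, sub_eq_zero]
  exact this

variable [T2Space X]

section wr
variable {O : Ori k (d + 1) X} {s r : C(X, ℝ)} {a b R : ℝ} {y y' : Ch k (d + 1) X}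
  (ho : ∀ C ∈ 𝒞, IsOpen C) (hc : univ ⊆ ⋃₀ 𝒞) (hn : i + j = d + 1) (J : Submodule k M) {f : Co M j X}
  (f1 : ∀ σ ∈ (SB 𝒞 (win s a b)).S (j + 1), cob k f σ ∈ J)
  (f2 : ∀ σ ∈ (SB 𝒞 (fw s r a b R)).S j, f σ ∈ J) (hw : Wr O 𝒞 s r a b R y)
  (hy : y ∈ (Sm 𝒞).ch k (d + 1))
include ho hc hw hy

omit [T2Space X] in
theorem Wr.sb : y ∈ (SB 𝒞 (win s a b)).ch k (d + 1) ∧ bd k y ∈ (SB 𝒞 (fw s r a b R)).ch k d :=
  ⟨Sml.mem_inf (hw.mem ho hc).1 hy, Sml.mem_inf (hw.mem ho hc).2 (Sb.bd_mem hy)⟩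

include f1 f2

include hn in
/-- **MOVE** -/
theorem move {h : Co k i X} (hh : h ∈ (SB 𝒞 (win s a b)).Z k k i) (hw' : Wr O 𝒞 s r a b R y')
    (hy' : y' ∈ (Sm 𝒞).ch k (d + 1)) : per (d + 1) h f y - per (d + 1) h f y' ∈ J :=
  move_RN ho hc hn J hh f1 f2 hy hy' (hw.sub ho hc hw')

omit [T2Space X] in
/-- **DIE** -/
theorem die (hn : i + j = d) {h : Co k (i + 1) X} (hh : h ∈ (SB 𝒞 (win s a b)).Ex k k (i + 1)) :
    per (d + 1) h f y ∈ J :=
  die_RN hn J hh f1 f2 (hw.sb ho hc hy).1 (hw.sb ho hc hy).2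

omit [T2Space X] in
include hn in
/-- **COM** -/
theorem com {h : Co k i X} (hh : h ∈ (SB 𝒞 (win s a b)).Z k k i) :
    per (d + 1) h f y - (-1 : k) ^ (i * j) • per' (d + 1) h f y ∈ J :=
  com_RN hn J hh f1 f2 (hw.sb ho hc hy).1 (hw.sb ho hc hy).2

end wr

variable [ChartedSpace (EE (d + 1 + 1)) X] {O : Ori k (d + 1) X} (hO : O.ND)
  (hX : Acy k (univ : Set X) univ) (hij : i + 1 + j = d) {ι : Type}
include hO hX hij

/-- detection on a star, abstract sets -/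
theorem det_abs (J : Finset ι) {A Wt Ww Rs Fs Ks : ι → Set X} (ho : ∀ Y ∈ 𝒰, IsOpen Y) (hc : univ ⊆ ⋃₀ 𝒰)
    (c1 : ∀ e ∈ J, ∀ Y ∈ 𝒰, Y ⊆ A e ∨ Y ⊆ (A e)ᶜ ∨ Y ⊆ Wt e)
    (c2 : ∀ Y ∈ 𝒰, (∃ e ∈ J, Y ⊆ (A e)ᶜ) ∨ Y ⊆ W) (hA : ∀ e ∈ J, ∀ e' ∈ J, e ≠ e' → (A e)ᶜ ⊆ A e')
    (hW : ∀ e ∈ J, Wt e ⊆ Ww e ∧ Ww e ⊆ W ∩ Rs e) (hR : ∀ e ∈ J, IsOpen (Rs e))
    (hK : ∀ e ∈ J, IsCompact (Ks e) ∧ Ks e ⊆ Rs e ∧ Wt e \ Ks e ⊆ Fs e)
    (hU : U ⊆ W) (hU' : ∀ e ∈ J, U ⊆ A e ∩ (Rs e)ᶜ) {z : ι → Ch k (d + 2) X} {y : ι → Ch k (d + 1) X}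
    (hz : ∀ e ∈ J, z e ∈ (Sm 𝒰).ch k (d + 2) ∧ O.Fund (Ks e) (z e) ∧
      wall (A e) (z e) - y e ∈ RN k (Ww e) (Fs e) (d + 1))
    {f : Co k (j + 1) X} (f0 : IsCompact K) (f0' : f ∈ (On (W \ K)).van k k (j + 1))
    (f1 : f ∈ (On W).Z k k (j + 1)) (f2 : ∀ e ∈ J, f ∈ (On (Fs e)).van k k (j + 1))
    (h : ∀ e ∈ J, ∀ x ∈ (On (Rs e)).Z k k (i + 1), per (d + 1) x f (y e) = 0) :
    ∃ θ ∈ Cc k univ k j, f - cob k θ ∈ (On U).van k k (j + 1) := by
  have key : ∀ e, ∃ ψ : Co k (j + 1) X, e ∈ J → ψ ∈ Cc k (Rs e) k (j + 1) ∧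
      cob k ψ = hon 𝒰 k (cup (LinearMap.mul k k) (j + 1 + 1) f (cob k (cut k (A e)))) := fun e => by
    by_cases he : e ∈ J
    · obtain ⟨ψ, h1, h2⟩ := side hO (W := Ww e) (L' := Wt e) (H := (On (Rs e)).Z k k (i + 1))
        ⟨ho, hc, fun _ _ => Or.inr (subset_univ _), fun _ _ => Or.inr (subset_univ _), subset_rfl,
          subset_rfl, c1 e he⟩ hij (hR e he) (hK e he).1 (hK e he).2.1 (hK e he).2.2 (hW e he).1 subset_rfl
        (Sb.Z_mono (On_le ((hW e he).2.trans inter_subset_right))) le_sup_left (hz e he).1 (hz e he).2.1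
        (hz e he).2.2 (Sb.Z_mono (On_le ((hW e he).2.trans inter_subset_left)) f1) (f2 e he)
        fun x hx => per_eq x f _ ▸ h e he x hx
      exact ⟨ψ, fun _ => ⟨h1, h2⟩⟩
    · exact ⟨0, fun h => absurd h he⟩
  choose ψ hψ using key
  set χ : Co k 0 X := (fun _ => 1) - ∑ e ∈ J, ((fun _ => 1) - cut k (A e)) with hχ
  have x1 : ∀ e ∈ J, χ ∈ (On (A e)ᶜ).van k k 0 := fun e he σ hσ => by
    rw [hχ, Pi.sub_apply, Finset.sum_apply, Finset.sum_eq_single_of_mem e he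
      fun e' he' hne => by simp [cut_one (hσ.trans (hA e he e' he' hne.symm))]]
    simp [cut_zero hσ]
  have x2 : ∀ σ : Sx 0 X, range σ ⊆ U → χ σ = 1 := fun σ hσ => by
    rw [hχ, Pi.sub_apply, Finset.sum_apply, Finset.sum_eq_zero
      fun e he => by simp [cut_one (hσ.trans ((hU' e he).trans inter_subset_left))]]
    simp
  have x3 : cob k χ = ∑ e ∈ J, cob k (cut k (A e)) := by
    simp only [hχ, map_sub, map_sum, cob_one, zero_sub, Finset.sum_neg_distrib, neg_neg]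
  set g := cup (LinearMap.mul k k) (j + 1) f χ with hg
  have g1 : cob k g - (-1 : k) ^ (j + 1) • ∑ e ∈ J,
      cup (LinearMap.mul k k) (j + 1 + 1) f (cob k (cut k (A e))) ∈ (Sm 𝒰).van k k _ := by
    have e : ∑ e ∈ J, cup (LinearMap.mul k k) (j + 1 + 1) f (cob k (cut k (A e))) =
        cup (LinearMap.mul k k) (j + 1 + 1) f (cob k χ) := by
      funext σ; simp [x3, cup]
    rw [e, hg, cupS_holds k k k k _ X (j + 1) 0 _ rfl, add_sub_cancel_right]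
    exact van_sm fun Y hY => (c2 Y hY).elim (fun ⟨e, he, h⟩ => cup_van_r _ _ (van_mono h (x1 e he)))
      fun h => cup_van_l _ (van_mono h f1) _
  have g2 := hon_zero ho hc g1
  have hs : hon 𝒰 k (∑ e ∈ J, cup (LinearMap.mul k k) (j + 1 + 1) f (cob k (cut k (A e)))) =
      cob k (∑ e ∈ J, ψ e) := by
    rw [map_sum, Finset.sum_congr rfl fun e he => (hψ e he).2]
    funext σ
    simp only [hon, Finset.sum_apply]
    exact LinearMap.congr_fun (map_sum (evL k _ X) _ J) _ |>.trans (LinearMap.sum_apply _ _ _)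
  rw [hon_sub, hon_smul, hs, ← cob_hon, ← map_smul, ← map_sub] at g2
  have g3 : hon 𝒰 k g ∈ (On Kᶜ).van k k _ := hon_van ho hc fun Y hY =>
    (c2 Y hY).elim (fun ⟨e, he, h⟩ => cup_van_r _ _ (van_mono (inter_subset_left.trans h) (x1 e he)))
      fun h => cup_van_l _ (van_mono (inter_subset_inter_left _ h) f0') _
  obtain ⟨θ, t1, t2⟩ := hc_zero hO hX (show j < d + 1 by omega)
    (Submodule.sub_mem _ ⟨K, f0, subset_univ _, g3⟩ (Submodule.smul_mem _ _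
      (Submodule.sum_mem _ fun e he => Cc_mono (subset_univ _) (hψ e he).1))) g2
  obtain ⟨e, e1, e2⟩ := sub_hon (𝒰 := 𝒰) (Sb.Z_mono (On_le hU) f1)
  refine ⟨θ + e, Submodule.add_mem _ t1 ⟨K, f0, subset_univ _,
    e2 _ (van_mono (inter_subset_inter_left _ hU) f0')⟩, ?_⟩
  have a1 : hon 𝒰 k (f - g) ∈ (On U).van k k _ := hon_van ho hc fun Y _ σ hσ => by
    simp [hg, cup, fr_self, x2 _ ((range_bk 0 σ).trans (hσ.trans inter_subset_right))]
  have a2 : ∑ e ∈ J, ψ e ∈ (On U).van k k _ := Submodule.sum_mem _ fun e he => by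
    obtain ⟨Q, -, q2, q3⟩ := (hψ e he).1
    exact van_mono (fun x hx h => (hU' e he hx).2 (q2 h)) q3
  have := Submodule.add_mem _ (Submodule.add_mem _ e1 a1)
    (Submodule.smul_mem _ ((-1 : k) ^ (j + 1)) a2)
  rwa [hon_sub, show f - hon 𝒰 k f - cob k e + (hon 𝒰 k f - hon 𝒰 k g) +
    (-1 : k) ^ (j + 1) • ∑ e ∈ J, ψ e = f - cob k (θ + e) by rw [map_add, t2]; abel] at this

variable (ho : ∀ C ∈ 𝒞, IsOpen C) (hc : univ ⊆ ⋃₀ 𝒞) {r : C(X, ℝ)} {R : ℝ}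
include ho hc

/-- **detection on a star by absolute classes** -/
theorem det_star (J : Finset ι) {s : ι → C(X, ℝ)} {a b : ι → ℝ} (hab : ∀ e ∈ J, a e < b e)
    (hd : ∀ e ∈ J, ∀ e' ∈ J, e ≠ e' → ∀ x, a e < s e x → s e' x ≤ a e')
    (hK : ∀ e ∈ J, IsCompact (box (s e) r (a e) (b e) R)) {y : ι → Ch k (d + 1) X}
    (hw : ∀ e ∈ J, Wr O 𝒞 (s e) r (a e) (b e) R (y e) ∧ y e ∈ (Sm 𝒞).ch k (d + 1))
    {f : Co k (j + 1) X} (f0 : f ∈ Cc k univ k (j + 1))
    (f1 : f ∈ (SB 𝒞 {x | ∀ e ∈ J, s e x < b e}).Z k k (j + 1))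
    (f2 : ∀ e ∈ J, f ∈ (SB 𝒞 (fw (s e) r (a e) (b e) R)).van k k (j + 1))
    (h : ∀ e ∈ J, ∀ x ∈ (On (hi (s e) (a e))).Z k k (i + 1), per (d + 1) x f (y e) = 0) :
    ∃ θ ∈ Cc k univ k j, f - cob k θ ∈ (SB 𝒞 {x | ∀ e ∈ J, s e x ≤ a e}).van k k (j + 1) := by
  obtain ⟨ε, e0, e1⟩ : ∃ ε : ℝ, 0 < ε ∧ ∀ e ∈ J, 4 * ε ≤ b e - a e := by
    have : ∀ᶠ δ in 𝓝[>] (0 : ℝ), 0 < δ ∧ ∀ e ∈ J, δ < (b e - a e) / 4 :=
      eventually_mem_nhdsWithin.and ((eventually_all_finset J).2 fun e he =>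
        (eventually_lt_nhds (by linarith [hab e he])).filter_mono nhdsWithin_le_nhds)
    obtain ⟨δ, h0, h1⟩ := this.exists
    exact ⟨δ, h0, fun e he => by linarith [h1 e he]⟩
  set 𝒰 : Set (Set X) := {Y | IsOpen Y ∧ ∀ e ∈ J, Y ∈ cv 𝒞 (s e) r ε} with h𝒰
  have uo : ∀ Y ∈ 𝒰, IsOpen Y := fun _ h => h.1
  have uc : univ ⊆ ⋃₀ 𝒰 := fun x _ => by
    choose Y hY hx using fun e => cv_cov ho hc (s := s e) (r := r) e0 (mem_univ x)
    have o : IsOpen (⋂ e ∈ J, Y e) := isOpen_biInter_finset fun e _ => (hY e).1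
    refine ⟨_, ⟨o, fun e he => ?_⟩, mem_iInter₂.2 fun e _ => hx e⟩
    have m : (⋂ e ∈ J, Y e) ⊆ Y e := biInter_subset_of_mem he
    obtain ⟨C, hC, h⟩ := (hY e).2.1
    exact ⟨o, ⟨C, hC, m.trans h⟩, fun p hp q hq => (hY e).2.2 p (m hp) q (m hq)⟩
  have hb : ∀ e, ∃ z, e ∈ J → z ∈ (Sm 𝒰).ch k (d + 2) ∧ O.Fund (box (s e) r (a e) (b e) R) z := fun e => by
    by_cases he : e ∈ J
    · obtain ⟨z, h1, h2⟩ := fundS_holds k X (d + 1) O _ 𝒰 (hK e he) uo ((subset_univ _).trans uc)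
      exact ⟨z, fun _ => ⟨h1, h2⟩⟩
    · exact ⟨0, fun h => absurd h he⟩
  choose z hz using hb
  have bm : ∀ e, box (s e) r (a e + ε) (b e - ε) R ⊆ box (s e) r (a e) (b e) R := fun e =>
    box_mono (by linarith) (by linarith) le_rfl
  have kc := fun e he => (hK e he).of_isClosed_subset isClosed_box (bm e)
  obtain ⟨K, k1, k2, k3⟩ := exs_Cc (𝒰 := 𝒞) f0
  obtain ⟨θ, t1, t2⟩ := det_abs hO hX hij J (A := fun e => lo (s e) (a e + 2 * ε))
    (Wt := fun e => win (s e) (a e + ε) (b e - ε)) (Ww := fun e => win (s e) (a e) (b e))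
    (Rs := fun e => hi (s e) (a e)) (Fs := fun e => fw (s e) r (a e) (b e) R)
    (Ks := fun e => box (s e) r (a e + ε) (b e - ε) R) (W := {x | ∀ e ∈ J, s e x < b e})
    (U := {x | ∀ e ∈ J, s e x ≤ a e}) uo uc
    (fun e he Y hY => cv_three (hY.2 e he) (by linarith) (by linarith [e1 e he]))
    (fun Y hY => by
      by_cases hn : ∃ e ∈ J, Y ⊆ (lo (s e) (a e + 2 * ε))ᶜ
      · exact Or.inl hn
      refine Or.inr fun x hx e he => ?_
      obtain ⟨p, hp, h1⟩ := not_subset.1 fun h => hn ⟨e, he, h⟩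
      linarith [show s e p < a e + 2 * ε from not_not.1 h1, ((hY.2 e he).2.2 p hp x hx).1, e1 e he])
    (fun e he e' he' hne x hx => by
      have := hd e he e' he' hne x (by linarith [not_lo hx])
      show s e' x < _
      linarith)
    (fun e he => ⟨win_mono (by linarith) (by linarith), fun x hx => ⟨fun e' he' => by
      by_cases hne : e = e'
      · exact hne ▸ hx.2
      · exact (hd e he e' he' hne x hx.1).trans_lt (hab e' he'), hx.1⟩⟩)
    (fun _ _ => isOpen_hi)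
    (fun e he => ⟨kc e he, fun x hx => show a e < s e x by linarith [hx.2.1],
      win_diff_box.trans (fw_mono (by linarith) (by linarith) le_rfl)⟩)
    (fun x hx e he => (hx e he).trans_lt (hab e he))
    (fun e he x hx => ⟨show s e x < _ by linarith [hx e he], not_lt.2 (hx e he)⟩) (z := z) (y := y)
    (fun e he => ⟨(hz e he).1, (hz e he).2.mono (kc e he) (hK e he) (bm e),
      (hw e he).1.spec ho hc e0 (by linarith) (by linarith [e1 e he]) (hK e he) win_diff_box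
        (Sb.ch_mono (Sm_le fun Y hY => ⟨Y, hY.2 e he, subset_rfl⟩) (hz e he).1) (hz e he).2⟩)
    k1 (van_mono (sdiff_subset_compl _ _) k3) (exs_Z ho ((subset_univ _).trans hc) f1)
    (fun e he => exs_van_of_sm ho ((subset_univ _).trans hc) (f2 e he)) fun e he x hx => by
      rw [← h e he x hx, per_eq, per_eq]
      exact Sb.ev_congr exs_sub (D_sm cD' x (hw e he).2)
  refine ⟨θ, t1, ?_⟩
  simpa using Submodule.sub_mem _ (Sb.van_mono Sb.inf_le_left t2)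
    (Sb.van_mono Sb.inf_le_right (exs_sub (k := k) (𝒰 := 𝒞) (θ := f)))

omit hO hX hij [ChartedSpace (EE (d + 1 + 1)) X] in
/-- reversing the level function reverses the wall -/
theorem wr_rev {s s' : C(X, ℝ)} {a b c : ℝ} (e : ∀ x, s' x = c - s x) {y : Ch k (d + 1) X}
    (h : Wr O 𝒞 s r a b R y) : Wr O 𝒞 s' r (c - b) (c - a) R (-y) := by
  obtain ⟨ε, m, -, -, g1, g2, g3, -⟩ := id h
  obtain ⟨K, z, k1, -, k3, k4, k5, k6⟩ := h.at ho hc (half_pos g1) (m := m) (by linarith) (by linarith)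
    isCompact_empty
  have w1 : win s' (c - b) (c - a) = win s a b := by
    ext x; simp only [win, mem_ofPred_eq]; rw [e x]
    constructor <;> intro h <;> constructor <;> linarith [h.1, h.2]
  have w2 : fw s' r (c - b) (c - a) R = fw s r a b R := by rw [fw_eq, fw_eq, w1]
  have w3 : z ∈ (Sm (cv 𝒞 s' r (ε / 2))).ch k (d + 2) :=
    Sb.ch_mono (Sm_le fun Y hY => ⟨Y, show Y ∈ cv 𝒞 s' r (ε / 2) from ⟨hY.1, hY.2.1, fun p hp q hq =>
      ⟨by rw [e, e]; linarith [(hY.2.2 q hq p hp).1], (hY.2.2 p hp q hq).2⟩⟩, subset_rfl⟩) k4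
  have w4 := (cut_win ho hc (s := s') (r := r) (a := c - b) (b := c - a) (a' := c - m) (m := c - m)
    (b' := c - m + ε / 2) (half_pos g1) (by linarith) le_rfl (by linarith) (by linarith)).wall_sub
    (A' := (lo s m)ᶜ) (F := fw s' r (c - b) (c - a) R)
    (fun x hx h => by linarith [show s' x < c - m from hx, show s x < m from h, e x])
    (fun x hx h => h (show s x < m by linarith [not_lo hx, e x])) w3 k5.rc (by rwa [w1, w2])
  refine ⟨ε / 2, c - m, K, z, half_pos g1, by linarith, by linarith, k1, by rwa [w1, w2], w3, k5, ?_⟩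
  rw [wall_compl] at w4
  rw [← w1, ← w2] at k6
  convert Submodule.sub_mem _ w4 k6 using 1
  abel

/-- **detection on a window by absolute classes**: `y` left of `a'`, `y'` right of `b'` -/
theorem det_win {s : C(X, ℝ)} {a a' b' b : ℝ} (h1 : a < a') (h2 : a' ≤ b') (h3 : b' < b)
    (hK : IsCompact (box s r a b R)) {y y' : Ch k (d + 1) X} (hw : Wr O 𝒞 s r a a' R y)
    (hy : y ∈ (Sm 𝒞).ch k (d + 1)) (hw' : Wr O 𝒞 s r b' b R y') (hy' : y' ∈ (Sm 𝒞).ch k (d + 1))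
    {f : Co k (j + 1) X} (f0 : f ∈ Cc k univ k (j + 1)) (f1 : f ∈ (SB 𝒞 (win s a b)).Z k k (j + 1))
    (f2 : f ∈ (SB 𝒞 (fw s r a a' R)).van k k (j + 1)) (f2' : f ∈ (SB 𝒞 (fw s r b' b R)).van k k (j + 1))
    (h : ∀ x ∈ (On (lo s a')).Z k k (i + 1), per (d + 1) x f y = 0)
    (h' : ∀ x ∈ (On (hi s b')).Z k k (i + 1), per (d + 1) x f y' = 0) :
    ∃ θ ∈ Cc k univ k j, f - cob k θ ∈ (SB 𝒞 {x | a' ≤ s x ∧ s x ≤ b'}).van k k (j + 1) := by
  have hr := wr_rev ho hc (s' := -s) (c := 0) (fun x => by simp) hw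
  rw [zero_sub, zero_sub] at hr
  have w1 : ∀ R, fw (-s) r (-a') (-a) R = fw s r a a' R := fun R => by ext x; simp [fw, and_comm]
  obtain ⟨θ, t1, t2⟩ := det_star hO hX hij ho hc (R := R) (r := r) Finset.univ
    (s := fun e : Bool => if e then s else -s) (a := fun e => if e then b' else -a')
    (b := fun e => if e then b else -a) (y := fun e => if e then y' else -y)
    (by simp [h1, h3])
    (by
      rintro (_ | _) - (_ | _) - hne x hx <;> simp at hne hx ⊢ <;> linarith)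
    (by
      rintro (_ | _) -
      · refine hK.of_isClosed_subset isClosed_box fun x hx => ?_
        simp only [box, mem_ofPred_eq, Bool.false_eq_true, if_false, ContinuousMap.neg_apply] at hx ⊢
        exact ⟨hx.1, by linarith [hx.2.2], by linarith [hx.2.1]⟩
      · exact hK.of_isClosed_subset isClosed_box (box_mono (h1.le.trans h2) le_rfl le_rfl))
    (by
      rintro (_ | _) -
      exacts [⟨hr, Submodule.neg_mem _ hy⟩, ⟨hw', hy'⟩])
    f0 (Sb.Z_mono (SB_mono fun x hx =>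
      show a < s x ∧ s x < b from ⟨by simpa using hx false, by simpa using hx true⟩) f1)
    (by
      rintro (_ | _) -
      exacts [(w1 R).symm ▸ f2, f2'])
    (by
      rintro (_ | _) - x hx
      · have : hi (-s) (-a') = lo s a' := by ext; simp [hi, lo]
        have := h x (this ▸ hx)
        simp only [per] at this
        simp [per, this]
      · exact h' x hx)
  exact ⟨θ, t1, Sb.van_mono (SB_mono fun x hx e _ => by cases e <;> simp [hx.1, hx.2]) t2⟩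

end Crest.Agent.N255.Wn

end
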