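import Crest.Agent.N255.Wn.Tame

/-!
# Row 255 (helper46): windows of a level function `s`, far parts of a radius `r`
-/

set_option autoImplicit false
open Set Filter Topology

noncomputable section

namespace Crest.Agent.N255.Wn

open Crest.Agent.N255.Tp Crest.Agent.N255.Wi

variable {X : Type} [TopologicalSpace X] {n i j d : ℕ}

/-- below `t` -/
def lo (s : C(X, ℝ)) (t : ℝ) : Set X := {x | s x < t}

/-- above `t` -/
def hi (s : C(X, ℝ)) (t : ℝ) : Set X := {x | t < s x}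

/-- open window -/
def win (s : C(X, ℝ)) (a b : ℝ) : Set X := {x | a < s x ∧ s x < b}

/-- far part of a window -/
def fw (s r : C(X, ℝ)) (a b R : ℝ) : Set X := {x | R < r x ∧ a < s x ∧ s x < b}

/-- bounded part of the closed window -/
def box (s r : C(X, ℝ)) (a b R : ℝ) : Set X := {x | r x ≤ R ∧ a ≤ s x ∧ s x ≤ b}

/-- the refinement of `𝒞` by sets on which `s` varies by less than `ε` and `r` by less than `1` -/
def cv (𝒞 : Set (Set X)) (s r : C(X, ℝ)) (ε : ℝ) : Set (Set X) :=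
  {U | IsOpen U ∧ (∃ C ∈ 𝒞, U ⊆ C) ∧ ∀ x ∈ U, ∀ y ∈ U, s y < s x + ε ∧ r y < r x + 1}

variable {𝒞 : Set (Set X)} {s r : C(X, ℝ)} {a a' a₁ a'' b b' b₁ b'' m m' t t' ε ε' R R' R₁ R₂ : ℝ}

theorem isOpen_lo : IsOpen (lo s t) := isOpen_lt s.continuous continuous_const

theorem isOpen_hi : IsOpen (hi s t) := isOpen_lt continuous_const s.continuous

theorem isOpen_win : IsOpen (win s a b) := isOpen_hi.inter isOpen_lo

theorem isOpen_fw : IsOpen (fw s r a b R) := (isOpen_hi (s := r)).inter isOpen_win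

theorem isClosed_box : IsClosed (box s r a b R) :=
  (isClosed_le r.continuous continuous_const).inter
    ((isClosed_le continuous_const s.continuous).inter (isClosed_le s.continuous continuous_const))

theorem not_lo {x : X} (h : x ∈ (lo s t)ᶜ) : t ≤ s x := not_lt.1 h

theorem lo_mono (h : t ≤ t') : lo s t ⊆ lo s t' := fun _ hx => lt_of_lt_of_le hx h

theorem hi_mono (h : t' ≤ t) : hi s t ⊆ hi s t' := fun _ hx => lt_of_le_of_lt h hx

theorem win_mono (h : a ≤ a') (h' : b' ≤ b) : win s a' b' ⊆ win s a b :=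
  fun _ hx => ⟨h.trans_lt hx.1, hx.2.trans_le h'⟩

theorem fw_mono (h : a ≤ a') (h' : b' ≤ b) (hR : R ≤ R') : fw s r a' b' R' ⊆ fw s r a b R :=
  fun _ hx => ⟨hR.trans_lt hx.1, win_mono h h' hx.2⟩

theorem box_mono (h : a ≤ a') (h' : b' ≤ b) (hR : R' ≤ R) : box s r a' b' R' ⊆ box s r a b R :=
  fun _ hx => ⟨hx.1.trans hR, h.trans hx.2.1, hx.2.2.trans h'⟩

theorem fw_le : fw s r a b R ⊆ win s a b := fun _ h => h.2

theorem fw_eq : fw s r a b R = win s a b ∩ hi r R := inter_comm (hi r R) _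

theorem win_eq : win s a b = lo s b ∩ hi s a := inter_comm (hi s a) _

theorem win_lo : win s a b ⊆ lo s b := fun _ h => h.2

theorem win_hi : win s a b ⊆ hi s a := fun _ h => h.1

theorem lo_union_hi (h : a < b) : lo s b ∪ hi s a = univ :=
  eq_univ_of_forall fun x => (lt_or_ge (s x) b).imp id fun h' => h.trans_le h'

theorem win_diff_box : win s a b \ box s r a b R ⊆ fw s r a b R :=
  fun _ h => ⟨not_le.1 fun h' => h.2 ⟨h', h.1.1.le, h.1.2.le⟩, h.1⟩

theorem cv_op : ∀ U ∈ cv 𝒞 s r ε, IsOpen U := fun _ h => h.1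

theorem cv_cov (ho : ∀ C ∈ 𝒞, IsOpen C) (hc : univ ⊆ ⋃₀ 𝒞) (hε : 0 < ε) : univ ⊆ ⋃₀ cv 𝒞 s r ε := by
  intro x _
  obtain ⟨C, hC, hx⟩ := hc (mem_univ x)
  refine ⟨C ∩ (win s (s x - ε / 2) (s x + ε / 2) ∩ win r (r x - 1 / 2) (r x + 1 / 2)),
    ⟨(ho C hC).inter (isOpen_win.inter isOpen_win), ⟨C, hC, inter_subset_left⟩, ?_⟩,
    hx, ⟨by linarith, by linarith⟩, by linarith, by linarith⟩
  rintro y ⟨-, ⟨h1, -⟩, h2, -⟩ y' ⟨-, ⟨-, h3⟩, -, h4⟩
  constructor <;> linarith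

theorem cv_mono (h : ε ≤ ε') : (Sm (cv 𝒞 s r ε)).Le (Sm (cv 𝒞 s r ε')) :=
  Sm_le fun U hU => ⟨U, ⟨hU.1, hU.2.1, fun x hx y hy =>
    ⟨by linarith [(hU.2.2 x hx y hy).1], (hU.2.2 x hx y hy).2⟩⟩, subset_rfl⟩

theorem cv_le : (Sm (cv 𝒞 s r ε)).Le (Sm 𝒞) := Sm_le fun _ hU => hU.2.1

theorem cv_three {Y : Set X} (hY : Y ∈ cv 𝒞 s r ε) (h : a + ε ≤ a') (h' : b' + ε ≤ b) :
    Y ⊆ lo s a' ∨ Y ⊆ (lo s b')ᶜ ∨ Y ⊆ win s a b := by
  by_contra hn
  simp only [not_or, not_subset] at hn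
  obtain ⟨⟨x, hx, h1⟩, ⟨y, hy, h2⟩, z, hz, h3⟩ := hn
  have h1 : a' ≤ s x := not_lt.1 h1
  have h2 : s y < b' := not_not.1 h2
  exact h3 ⟨by linarith [(hY.2.2 z hz x hx).1], by linarith [(hY.2.2 y hy z hz).1]⟩

theorem cv_far {Y : Set X} (hY : Y ∈ cv 𝒞 s r ε) (h : a + ε ≤ a') (h' : b' + ε ≤ b) (hR : R + 1 ≤ R') :
    Y ⊆ (fw s r a' b' R')ᶜ ∨ Y ⊆ fw s r a b R := by
  by_cases hn : Y ⊆ (fw s r a' b' R')ᶜ
  · exact Or.inl hn
  obtain ⟨x, hx, h1⟩ := not_subset.1 hn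
  obtain ⟨h1, h2, h3⟩ := not_not.1 h1
  exact Or.inr fun y hy => ⟨by linarith [(hY.2.2 y hy x hx).2], by linarith [(hY.2.2 y hy x hx).1],
    by linarith [(hY.2.2 x hx y hy).1]⟩

theorem hi_le_compl (h : m ≤ t) : hi s t ⊆ (lo s m)ᶜ := fun _ hx h' => by
  have h1 : t < _ := hx
  have h2 : _ < m := h'
  linarith

variable (ho : ∀ C ∈ 𝒞, IsOpen C) (hc : univ ⊆ ⋃₀ 𝒞)

include ho hc in
theorem cut_win (hε : 0 < ε) (h1 : a + ε ≤ a') (h2 : a' ≤ m) (h3 : m ≤ b') (h4 : b' + ε ≤ b) :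
    Cut (cv 𝒞 s r ε) (lo s m) (lo s b) (hi s a) (lo s a') (lo s b')ᶜ (win s a b) where
  op := cv_op
  cov := cv_cov ho hc hε
  l _ hY := (cv_three hY (a := m - ε) (a' := m) (b' := m) (b := b) (by linarith) (by linarith)).elim
    (fun h => Or.inr (h.trans (lo_mono (by linarith)))) fun h => h.imp id fun h => h.trans win_lo
  r _ hY := (cv_three hY (a := a) (a' := m) (b' := m) (b := m + ε) (by linarith) le_rfl).imp id
    fun h => h.elim (fun h x hx => show a < s x by linarith [not_lo (h hx)]) fun h => h.trans win_hi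
  lA := lo_mono h2
  rA := compl_subset_compl.2 (lo_mono h3)
  w _ hY := cv_three hY h1 h4

theorem Cut.mono {𝒰 : Set (Set X)} {A L R L' R' W L'' R'' : Set X} (C : Cut 𝒰 A L R L' R' W)
    (h : ∀ Y ∈ 𝒰, Y ⊆ L'' ∨ Y ⊆ R'' ∨ Y ⊆ W) (hl : L'' ⊆ A) (hr : R'' ⊆ Aᶜ) : Cut 𝒰 A L R L'' R'' W :=
  ⟨C.op, C.cov, C.l, C.r, hl, hr, h⟩

variable {k : Type} [Field k] {O : Ori k (d + 1) X} {w w' : Ch k (d + 1) X}

/-- `w` represents the wall class of the window `(a, b)` relative to the far part `R < r` -/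
def Wr (O : Ori k (d + 1) X) (𝒞 : Set (Set X)) (s r : C(X, ℝ)) (a b R : ℝ) (w : Ch k (d + 1) X) : Prop :=
  ∃ ε m K z, 0 < ε ∧ a + ε ≤ m ∧ m + ε ≤ b ∧ IsCompact K ∧ win s a b \ K ⊆ fw s r a b R ∧
    z ∈ (Sm (cv 𝒞 s r ε)).ch k (d + 2) ∧ O.Fund K z ∧
    wall (lo s m) z - w ∈ RN k (win s a b) (fw s r a b R) (d + 1)

theorem Wr.congr (h : Wr O 𝒞 s r a b R w) (e : w - w' ∈ RN k (win s a b) (fw s r a b R) (d + 1)) :
    Wr O 𝒞 s r a b R w' := by
  obtain ⟨ε, m, K, z, h1, h2, h3, h4, h5, h6, h7, h8⟩ := h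
  exact ⟨ε, m, K, z, h1, h2, h3, h4, h5, h6, h7, by simpa using Submodule.add_mem _ h8 e⟩

theorem wr_wall (hε : 0 < ε) (h1 : a + ε ≤ m) (h2 : m + ε ≤ b) {K : Set X} (hK : IsCompact K)
    (hF : win s a b \ K ⊆ fw s r a b R) {z : Ch k (d + 2) X} (hz : z ∈ (Sm (cv 𝒞 s r ε)).ch k (d + 2))
    (hf : O.Fund K z) : Wr O 𝒞 s r a b R (wall (lo s m) z) :=
  ⟨ε, m, K, z, hε, h1, h2, hK, hF, hz, hf, by simp⟩

include ho hc

theorem Wr.mem (h : Wr O 𝒞 s r a b R w) :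
    w ∈ (On (win s a b)).ch k (d + 1) ∧ bd k w ∈ (On (fw s r a b R)).ch k d := by
  obtain ⟨ε, m, K, z, h1, h2, h3, h4, h5, h6, h7, h8⟩ := h
  exact Wl.mem (V₁ := ∅) (cut_win ho hc h1 h2 le_rfl le_rfl h3)
    ⟨fun _ _ => Or.inl (by simp), win_lo, win_hi, fw_le, K, z, h4, h5, h6, h7, h8⟩

variable [T2Space X]

/-- a wall is homologous to the wall of every cut in every good chain -/
theorem Wr.spec (h : Wr O 𝒞 s r a b R w) (hε : 0 < ε) (h1 : a + ε ≤ m) (h2 : m + ε ≤ b) {K : Set X}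
    (hK : IsCompact K) (hF : win s a b \ K ⊆ fw s r a b R) {z : Ch k (d + 2) X}
    (hz : z ∈ (Sm (cv 𝒞 s r ε)).ch k (d + 2)) (hf : O.Fund K z) :
    wall (lo s m) z - w ∈ RN k (win s a b) (fw s r a b R) (d + 1) := by
  obtain ⟨ε', m', K', z', g1, g2, g3, g4, g5, g6, g7, g8⟩ := h
  have hm : 0 < min ε ε' := lt_min hε g1
  have m1 := min_le_left ε ε'
  have m2 := min_le_right ε ε'
  obtain ⟨y, hy, fy⟩ := fundS_holds k X (d + 1) O (K ∪ K') (cv 𝒞 s r (min ε ε')) (hK.union g4) cv_op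
    ((subset_univ _).trans (cv_cov ho hc hm))
  have e1 := (cut_win ho hc hε h1 le_rfl le_rfl h2).wall_indep hF hz (Sb.ch_mono (cv_mono m1) hy) hf
    (fy.mono hK (hK.union g4) subset_union_left)
  have e2 := (cut_win ho hc g1 g2 le_rfl le_rfl g3).wall_indep g5 (Sb.ch_mono (cv_mono m2) hy) g6
    (fy.mono g4 (hK.union g4) subset_union_right) g7
  have e3 := (cut_win ho hc (a := a) (b := b) (m := m) (a' := a + min ε ε') (b' := b - min ε ε') hm le_rfl
    (by linarith) (by linarith) (by linarith)).wall_sub (A' := lo s m') (lo_mono (by linarith))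
    (compl_subset_compl.2 (lo_mono (by linarith))) hy
    (fy.mono hK (hK.union g4) subset_union_left).rc hF
  simpa using Submodule.add_mem _ (Submodule.add_mem _ (Submodule.add_mem _ e1 e3) e2) g8

theorem Wr.at (h : Wr O 𝒞 s r a b R w) (hε : 0 < ε) (h1 : a + ε ≤ m) (h2 : m + ε ≤ b) {Q : Set X}
    (hQ : IsCompact Q) : ∃ K z, IsCompact K ∧ Q ⊆ K ∧ win s a b \ K ⊆ fw s r a b R ∧
      z ∈ (Sm (cv 𝒞 s r ε)).ch k (d + 2) ∧ O.Fund K z ∧
      wall (lo s m) z - w ∈ RN k (win s a b) (fw s r a b R) (d + 1) := by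
  obtain ⟨-, -, K, -, -, -, -, g4, g5, -⟩ := id h
  obtain ⟨y, hy, fy⟩ := fundS_holds k X (d + 1) O (K ∪ Q) (cv 𝒞 s r ε) (g4.union hQ) cv_op
    ((subset_univ _).trans (cv_cov ho hc hε))
  have := (sdiff_subset_sdiff_right (s := win s a b) (subset_union_left (t := Q))).trans g5
  exact ⟨K ∪ Q, y, g4.union hQ, subset_union_right, this, hy, fy,
    h.spec ho hc hε h1 h2 (g4.union hQ) this hy fy⟩

/-- two walls of a window are homologous relative to the far part -/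
theorem Wr.sub (h : Wr O 𝒞 s r a b R w) (h' : Wr O 𝒞 s r a b R w') :
    w - w' ∈ RN k (win s a b) (fw s r a b R) (d + 1) := by
  obtain ⟨ε, m, K, z, g1, g2, g3, g4, g5, g6, g7, g8⟩ := h
  simpa using Submodule.sub_mem _ (h'.spec ho hc g1 g2 g3 g4 g5 g6 g7) g8

theorem Wr.mono (h : Wr O 𝒞 s r a' b' R' w) (ha : a ≤ a') (hb : b' ≤ b) (hR : R ≤ R')
    (hK : IsCompact (box s r a b R)) : Wr O 𝒞 s r a b R w := by
  obtain ⟨ε, m, -, -, g1, g2, g3, -⟩ := id h
  obtain ⟨K, z, k1, k2, -, k4, k5, k6⟩ := h.at ho hc g1 g2 g3 hK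
  exact ⟨ε, m, K, z, g1, by linarith, by linarith, k1,
    (sdiff_subset_sdiff_right k2).trans win_diff_box, k4, k5,
    RN_mono (win_mono ha hb) (fw_mono ha hb hR) k6⟩

/-- existence of small walls -/
theorem exists_wr (O : Ori k (d + 1) X) (hab : a < b) (hK : IsCompact (box s r a b R)) :
    ∃ w ∈ (Sm 𝒞).ch k (d + 1), Wr O 𝒞 s r a b R w := by
  have hε : 0 < (b - a) / 2 := by linarith
  obtain ⟨z, hz, hf⟩ := fundS_holds k X (d + 1) O _ (cv 𝒞 s r ((b - a) / 2)) hK cv_op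
    ((subset_univ _).trans (cv_cov ho hc hε))
  refine ⟨_, ?_, wr_wall hε (m := (a + b) / 2) (by linarith) (by linarith) hK win_diff_box hz hf⟩
  refine Sb.map_mem (cap' (d + 1) _) _ (fun σ hσ => ?_) (Sb.ch_mono cv_le hz)
  obtain ⟨Y, hY, hσ⟩ := hσ
  exact Sb.ch_mono (On_le_Sm hY) (cD.mem _ _ _ (Sb.sg_mem hσ))

variable [ChartedSpace (EE (d + 1 + 1)) X] {HL HR : Submodule k (Co k (i + 1) X)}

/-- far cycles of the window `(a'', b'')` can be pushed to infinity in the window `(a₁, b₁)` -/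
def EA (k : Type) [Field k] (s r : C(X, ℝ)) (j : ℕ) (a'' b'' R₂ a₁ b₁ R₁ : ℝ) : Prop :=
  ∀ R, (On (fw s r a'' b'' R₂)).ch k j ⊓ cyc k X j ≤ RN k (fw s r a₁ b₁ R₁) (fw s r a₁ b₁ R) j

variable (hO : O.ND) (hX : Acy k (univ : Set X) univ) (hij : i + 1 + j = d)
include hO hX hij

/-- **detection**, homological form -/
theorem det_re (h1 : a < a') (h2 : a' ≤ a₁) (h3 : a₁ ≤ a'') (h4 : a'' ≤ b'') (h5 : b'' ≤ b₁)
    (h6 : b₁ ≤ b') (h7 : b' < b) (hR : R + 1 ≤ R₁) (hR' : R₁ ≤ R₂)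
    (zl : HL ≤ (On (lo s b)).Z k k (i + 1)) (zr : HR ≤ (On (hi s a)).Z k k (i + 1))
    (wl : (On (lo s a₁)).Z k k (i + 1) ≤ HL ⊔ (On (lo s a')).Ex k k (i + 1))
    (wr : (On (hi s b₁)).Z k k (i + 1) ≤ HR ⊔ (On (hi s b')).Ex k k (i + 1))
    (ea : EA k s r j a'' b'' R₂ a₁ b₁ R₁) (hw : Wr O 𝒞 s r a b R w) {c : Ch k (j + 1) X}
    (h : c ∈ (On (win s a'' b'')).ch k (j + 1)) (hb : bd k c ∈ (On (fw s r a'' b'' R₂)).ch k j) :
    (∃ x ∈ HL, ∃ y ∈ HR, c - cap (j + 1) (x + y) w ∈ RN k (win s a b) (fw s r a b R) (j + 1)) ∧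
      ∃ x ∈ HL, ∃ y ∈ HR, c - cap' (j + 1) (x + y) w ∈ RN k (win s a b) (fw s r a b R) (j + 1) := by
  set ε := min (a' - a) ((b - b') / 2) with hε
  have e0 : 0 < ε := lt_min (by linarith) (by linarith)
  have e1 : ε ≤ a' - a := min_le_left _ _
  have e2 : ε ≤ (b - b') / 2 := min_le_right _ _
  have C := (cut_win ho hc (s := s) (r := r) (a := a) (b := b) (a' := a') (b' := b') (m := a') e0
    (by linarith) le_rfl (by linarith) (by linarith)).mono (L'' := lo s a') (R'' := hi s b')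
    (fun Y hY => (cv_three hY (a := a) (a' := a') (b' := b' + ε) (b := b) (by linarith)
      (by linarith)).imp id fun h => h.imp (fun h x hx => show b' < s x by
        linarith [not_lo (h hx)]) id) subset_rfl (hi_le_compl (by linarith))
  obtain ⟨K, z, k1, -, k3, k4, k5, k6⟩ := hw.at ho hc e0 (m := a') (by linarith) (by linarith)
    isCompact_empty
  have hl : Wl O (cv 𝒞 s r ε) (lo s a') (lo s b) (hi s a) (win s a b) (fw s r a b R)
      (fw s r a₁ b₁ R₁) w :=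
    ⟨fun Y hY => cv_far hY (by linarith) (by linarith) hR, win_lo, win_hi, fw_le, K, z, k1, k3, k4, k5, k6⟩
  have H : Dt k i j (win s a'' b'') (fw s r a'' b'' R₂) (fw s r a₁ b₁ R₁) (lo s a₁) (hi s b₁) (lo s b)
      (hi s a) (lo s a') (hi s b') HL HR :=
    ⟨isOpen_win, isOpen_fw, isOpen_fw, fw_le, fw_mono h3 h5 hR',
      fun x hx => ⟨fun h => by linarith [h.1, show s x < a₁ from hx],
        fun h => by linarith [h.2.1, show s x < a₁ from hx]⟩,
      fun x hx => ⟨fun h => by linarith [h.2, show b₁ < s x from hx],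
        fun h => by linarith [h.2.2, show b₁ < s x from hx]⟩,
      zl, zr, wl, wr, lo_mono h2, hi_mono h6, fun K hK => by
        obtain ⟨M, hM⟩ := (hK.image r.continuous).bddAbove
        refine (ea (max M R₁)).trans (RN_mono subset_rfl fun x hx => ⟨⟨(le_max_right _ _).trans_lt hx.1,
          hx.2⟩, fun h => ?_⟩)
        linarith [hM ⟨x, h, rfl⟩, le_max_left M R₁, hx.1]⟩
  have u1 : win s a'' b'' ⊆ win s a b := win_mono (by linarith) (by linarith)
  have u2 : fw s r a'' b'' R₂ ⊆ fw s r a b R := fw_mono (by linarith) (by linarith) (by linarith)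
  exact ⟨det hO hX C H hij u1 u2 hl h hb, det' hO hX C H hij u1 u2 hl h hb⟩

/-- **detection with bounded supports** -/
theorem det_b_re (h1 : a < a') (h2 : a' ≤ a₁) (h3 : a₁ ≤ b₁) (h4 : b₁ ≤ b') (h5 : b' < b)
    (hK : IsCompact (box s r a b R))
    (zl : HL ≤ (On (win s a b)).Z k k (i + 1)) (zr : HR ≤ (On (win s a b)).Z k k (i + 1))
    (wl : (On (lo s a₁)).Z k k (i + 1) ≤ HL ⊔ (On (lo s a')).Ex k k (i + 1))
    (wr : (On (hi s b₁)).Z k k (i + 1) ≤ HR ⊔ (On (hi s b')).Ex k k (i + 1))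
    (hw : Wr O 𝒞 s r a b R w) {M : Type} [AddCommGroup M] [Module k M] (N : Submodule k M)
    [Module.Finite k (M ⧸ N)] {f : Co M (j + 1) X}
    (f1 : ∀ σ : Sx (j + 2) X, range σ ⊆ win s a b → cob k f σ ∈ N)
    (f2 : ∀ σ : Sx (j + 1) X, range σ ⊆ fw s r a b R → f σ ∈ N)
    (h : (∀ x, x ∈ HL ∨ x ∈ HR → ev k f (cap (j + 1) x w) ∈ N) ∨
      ∀ x, x ∈ HL ∨ x ∈ HR → ev k f (cap' (j + 1) x w) ∈ N) :
    ∃ θ ∈ Cc k univ M j, ∀ σ : Sx (j + 1) X, range σ ⊆ win s a₁ b₁ → f σ - cob k θ σ ∈ N := by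
  set ε := min (a' - a) (b - b') / 3 with hε
  have e0 : 0 < ε := div_pos (lt_min (by linarith) (by linarith)) (by norm_num)
  have e1 : 3 * ε ≤ a' - a := by linarith [min_le_left (a' - a) (b - b')]
  have e2 : 3 * ε ≤ b - b' := by linarith [min_le_right (a' - a) (b - b')]
  obtain ⟨K, z, k1, k2, k3, k4, k5, k6⟩ := hw.at ho hc e0 (m := a + ε) le_rfl (by linarith) hK
  have B : Bt (cv 𝒞 s r ε) (lo s (a + ε)) (lo s (b - ε)) (win s a (a + 2 * ε)) (win s (b - 2 * ε) b)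
      (lo s a') (hi s b') (lo s a₁) (hi s b₁) (win s a₁ b₁) (win s a b) (fw s r a b R) K :=
    ⟨cv_op, cv_cov ho hc e0, fun _ hY => cv_three hY le_rfl (by linarith),
      fun _ hY => cv_three hY (by linarith) (by linarith), fun _ hY => cv_three hY le_rfl (by linarith),
      lo_mono (by linarith),
      subset_inter (win_mono le_rfl (by linarith)) (win_lo.trans (lo_mono (by linarith))),
      subset_inter (win_mono (by linarith) le_rfl) (win_hi.trans (hi_mono (by linarith))),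
      isOpen_lo, isOpen_hi, k1, k3, fw_le,
      ⟨box s r a (a + 2 * ε) R, hK.of_isClosed_subset isClosed_box (box_mono le_rfl (by linarith) le_rfl),
        subset_inter ((box_mono le_rfl (by linarith) le_rfl).trans k2)
          fun x hx => show s x < a₁ by linarith [hx.2.2],
        win_diff_box.trans (fw_mono le_rfl (by linarith) le_rfl)⟩,
      ⟨box s r (b - 2 * ε) b R, hK.of_isClosed_subset isClosed_box (box_mono (by linarith) le_rfl le_rfl),
        subset_inter ((box_mono (by linarith) le_rfl le_rfl).trans k2)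
          fun x hx => show b₁ < s x by linarith [hx.2.1],
        win_diff_box.trans (fw_mono (by linarith) le_rfl le_rfl)⟩,
      fun x hx => ⟨⟨⟨show s x < b - ε by linarith [hx.2], fun h => by
        linarith [hx.1, show s x < a + ε from h]⟩, fun h => by linarith [hx.1, show s x < a₁ from h],
        fun h => by linarith [hx.2, show b₁ < s x from h]⟩, by linarith [hx.1], by linarith [hx.2]⟩⟩
  exact det_b_mem hO hX B hij zl zr wl wr subset_rfl B.AA k4 k5 k6 N f1 f2 h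

omit ho hc hO hX hij [ChartedSpace (EE (d + 1 + 1)) X] in
/-- windows are tame if their far parts are -/
theorem tame_win (d : ℕ) [ChartedSpace (EE d) X] (h1 : a < a') (h2 : a' < a'') (h3 : b'' < b')
    (h4 : b' < b) (hK : ∀ R, IsCompact (box s r a' b' R))
    (hf : FR ((On (fw s r a' b' R)).ch k n ⊓ cyc k X n) ((On (win s a b)).B k n)) :
    FR ((On (win s a'' b'')).ch k n ⊓ cyc k X n) ((On (win s a b)).B k n) :=
  tame_of_far d r (Q' := {x | a' ≤ s x ∧ s x ≤ b'}) (Q'' := {x | a'' ≤ s x ∧ s x ≤ b''}) isOpen_win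
    (isOpen_win (a := a') (b := b')) isOpen_win
    ((isClosed_le continuous_const s.continuous).inter (isClosed_le s.continuous continuous_const))
    (fun _ h => ⟨h.1.le, h.2.le⟩) (fun _ h => ⟨h2.trans_le h.1, h.2.trans_lt h3⟩)
    (fun _ h => ⟨h.1.le, h.2.le⟩) (fun _ h => ⟨h1.trans_le h.1, h.2.trans_lt h4⟩)
    (fun R => inter_comm _ _ ▸ hK R) (by rwa [fw_eq] at hf)

omit ho hc hO hij [ChartedSpace (EE (d + 1 + 1)) X] [T2Space X] in
/-- sides are tame if windows are -/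
theorem tame_sides (h : a' < b') (h1 : a ≤ a') (h2 : b' ≤ b)
    (hf : FR ((On (win s a' b')).ch k n ⊓ cyc k X n) ((On (win s a b)).B k n)) :
    FR ((On (lo s b')).ch k n ⊓ cyc k X n) ((On (lo s b)).B k n) ∧
      FR ((On (hi s a')).ch k n ⊓ cyc k X n) ((On (hi s a)).B k n) :=
  ⟨fr_side hX isOpen_lo isOpen_hi (lo_union_hi h) (lo_mono h2)
      (by rw [← win_eq]; exact hf.mono le_rfl (B_mono win_lo)),
    fr_side hX isOpen_hi isOpen_lo (union_comm _ _ ▸ lo_union_hi h) (hi_mono h1)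
      (hf.mono le_rfl (B_mono win_hi))⟩

end Crest.Agent.N255.Wn

end
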