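import Crest.Agent.N255.Wn.Re
import Crest.Agent.N255.En.Defs

/-!
# Row 255 (helper46): consequences of the end structure: far cohomology, pushing cycles to infinity,
q-tameness, detection, degree of the walls
-/

set_option autoImplicit false
open Set Filter Topology

noncomputable section

namespace Crest.Agent.N255.Wn

open Crest.Agent.N255.Tp Crest.Agent.N255.Wi Crest.Agent.N255.En Crest.Agent.N255.Nv
  Crest.Agent.N255.Pt Crest.Agent.N255.Lv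

variable {X : Type} [TopologicalSpace X] {k : Type} [Field k] {n i j : ℕ}

section gen
variable {U V U' V' : Set X}

theorem fr_inf {M : Type} [AddCommGroup M] [Module k M] {Z B B' : Submodule k M} (h : FR Z B)
    (h' : FR Z B') : FR Z (B ⊓ B') := by
  obtain ⟨F, f1, -, f2⟩ := h.exists_le
  obtain ⟨G, g1, -, g2⟩ := (h'.mono (inf_le_left : Z ⊓ B ≤ Z) le_rfl).exists_le
  refine ⟨F ⊔ G, f1.sup g1, f2.trans ?_⟩
  rw [sup_assoc]
  exact sup_le_sup_left (g2.trans (sup_le_sup_left (inf_le_inf_right _ inf_le_right) _)) _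

theorem inter_B (hX : Acy k (univ : Set X) univ) (hU : IsOpen U) (hV : IsOpen V) (h : U ∪ V = univ) :
    (On U).B k n ⊓ (On V).B k n ≤ (On (U ∩ V)).B k n := by
  rintro _ ⟨⟨a, ha, rfl⟩, b, hb, e⟩
  obtain ⟨a', ha', b', hb', e'⟩ := split_B smChS_holds hU hV (c := a - b)
    (h ▸ hX (n + 1) ⟨mem_ch_univ _, show bd k _ = 0 by rw [map_sub, e, sub_self]⟩)
    (Submodule.sub_mem _ (Submodule.mem_sup_left ha) (Submodule.mem_sup_right hb))
  refine ⟨a - bd k a', ?_, by simp⟩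
  rw [ch_inter]
  refine ⟨Submodule.sub_mem _ ha (Sb.bd_mem ha'), ?_⟩
  rw [show a - bd k a' = b + bd k b' by rw [← sub_add_cancel a b, e']; abel]
  exact Submodule.add_mem _ hb (Sb.bd_mem hb')

theorem fr_inter (hX : Acy k (univ : Set X) univ) (hU : IsOpen U') (hV : IsOpen V') (h : U' ∪ V' = univ)
    (f1 : FR ((On U).ch k n ⊓ cyc k X n) ((On U').B k n))
    (f2 : FR ((On V).ch k n ⊓ cyc k X n) ((On V').B k n)) :
    FR ((On (U ∩ V)).ch k n ⊓ cyc k X n) ((On (U' ∩ V')).B k n) :=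
  (fr_inf (f1.mono (inf_le_inf_right _ (ch_mono inter_subset_left)) le_rfl)
    (f2.mono (inf_le_inf_right _ (ch_mono inter_subset_right)) le_rfl)).mono le_rfl (inter_B hX hU hV h)

theorem fr_univ (hX : Acy k (univ : Set X) univ) :
    FR ((On univ).ch k n ⊓ cyc k X n) ((On (univ : Set X)).B k n) :=
  fr_cyc (B := fun n => (On univ).B k n) n (FR.of_le (hX n))

theorem D_sm {D : ∀ {n : ℕ} (j : ℕ) {i : ℕ}, Co k i X → Ch k n X →ₗ[k] Ch k j X} (hD : CapLike k X D)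
    {𝒰 : Set (Set X)} (τ : Co k i X) {z : Ch k n X} (hz : z ∈ (Sm 𝒰).ch k n) :
    D j τ z ∈ (Sm 𝒰).ch k j :=
  Sb.map_mem (D j τ) _ (fun _ hσ => by
    obtain ⟨Y, hY, hσ⟩ := hσ
    exact Sb.ch_mono (On_le_Sm hY) (hD.mem _ _ _ (Sb.sg_mem hσ))) hz

theorem cap'_one (z : Ch k n X) : cap' n (fun _ : Sx 0 X => (1 : k)) z = z :=
  ch_ext' (T := LinearMap.id) (fun σ => by simp [cap', fr_self]) z

theorem cup_Z_sb {M M' M'' : Type} [AddCommGroup M] [Module k M] [AddCommGroup M'] [Module k M']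
    [AddCommGroup M''] [Module k M''] (μ : M →ₗ[k] M' →ₗ[k] M'') {𝒰 : Set (Set X)} (h : i + j = n)
    {φ : Co M i X} {ψ : Co M' j X} (hφ : φ ∈ ((On U).inf (Sm 𝒰)).Z k M i)
    (hψ : ψ ∈ ((On U).inf (Sm 𝒰)).Z k M' j) : cup μ n φ ψ ∈ ((On U).inf (Sm 𝒰)).Z k M'' n := by
  rw [Sb.mem_Z, cupS_holds k _ _ _ μ X i j n h]
  rintro σ ⟨h1, Y, hY, h2⟩
  have a := hφ (fr (i + 1) σ) ⟨(range_fr _ σ).trans h1, Y, hY, (range_fr _ σ).trans h2⟩
  have b := hψ (bk (j + 1) σ) ⟨(range_bk _ σ).trans h1, Y, hY, (range_bk _ σ).trans h2⟩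
  simp [cup, a, b]

end gen

variable {ι S : Type} [DecidableEq ι] [MulAction (FreeGroup ι) S] {w : En.Wl ι S}
  {F : Subgroup (FreeGroup ι)} [MulAction F X] {J : Finset (Ed ι)} {t t' : Ed ι → ℝ}
  {a a' a₁ a'' b b' b₁ b'' R R' : ℝ}

theorem adm_lo (h : Adm J t t') : ∃ t₀, Adm J t₀ t := by
  have : ∀ᶠ δ in 𝓝[>] (0 : ℝ), 0 < δ ∧ ∀ e ∈ J, δ < t e ∧ (rev e ∈ J → 2 * δ < t e + t (rev e) - 1) := by
    refine eventually_mem_nhdsWithin.and ((eventually_all_finset J).2 fun e he => ?_)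
    refine ((eventually_lt_nhds (h e he).1).and ?_).filter_mono nhdsWithin_le_nhds
    by_cases hr : rev e ∈ J
    · have := (h e he).2.2.2 hr
      exact (eventually_lt_nhds (show (0 : ℝ) < (t e + t (rev e) - 1) / 2 by linarith)).mono
        fun δ hδ _ => by linarith
    · exact Eventually.of_forall fun _ h => absurd h hr
  obtain ⟨δ, h0, h1⟩ := this.exists
  exact ⟨fun e => t e - δ, fun e he => ⟨by linarith [(h1 e he).1], by linarith,
    (h e he).2.1.trans (h e he).2.2.1, fun hr => by linarith [(h1 e he).2 hr]⟩⟩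

omit [DecidableEq ι] in
theorem adm_mid (h : Adm J t t') :
    Adm J t (fun e => (t e + t' e) / 2) ∧ Adm J (fun e => (t e + t' e) / 2) t' :=
  ⟨fun e he => by
      obtain ⟨h1, h2, h3, h4⟩ := h e he
      exact ⟨h1, by linarith, by linarith, h4⟩, fun e he => by
    obtain ⟨h1, h2, h3, h4⟩ := h e he
    exact ⟨by linarith, by linarith, h3, fun hr => by linarith [h4 hr, (h _ hr).2.1]⟩⟩

/-- thresholds of a window -/
def tw (e : Ed ι) (a b : ℝ) : Ed ι → ℝ := fun e' => if e' = e then b else 1 - a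

theorem tw_self (e : Ed ι) : tw e a b e = b := if_pos rfl

theorem tw_rev (e : Ed ι) : tw e a b (rev e) = 1 - a := if_neg (rev_ne e)

theorem adm_tw (e : Ed ι) (h0 : 0 < a) (h1 : a < a') (h2 : a' < b') (h3 : b' < b) (h4 : b < 1) :
    Adm {e, rev e} (tw e a' b') (tw e a b) := by
  intro e' he
  simp only [Finset.mem_insert, Finset.mem_singleton] at he
  rcases he with rfl | rfl <;> simp only [tw_self, tw_rev, rev_rev] <;>
    exact ⟨by linarith, by linarith, by linarith, fun _ => by linarith⟩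

theorem face_tw (e : Ed ι) : Face {e, rev e} := Or.inr ⟨e, by simp⟩

theorem face_one (e : Ed ι) : Face {e} := Or.inl (by simp)

theorem mod_tw (e : Ed ι) : w.Mod {e, rev e} = w.T e := by
  ext x
  simp only [En.Wl.Mod, Finset.mem_insert, Finset.mem_singleton, forall_eq_or_imp, forall_eq,
    mem_ofPred_eq]
  exact ⟨fun h => ((w.tri e x).resolve_right fun h' => h'.elim h.1 h.2),
    fun h => ⟨w.TB e x h, w.TB _ x (by rwa [w.T_rev])⟩⟩

section lev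
variable (N : Lev w F X)

theorem reg_tw (e : Ed ι) : N.Reg {e, rev e} (tw e a b) R = fw (N.s e) N.r a b R := by
  ext x
  simp only [Lev.Reg, fw, Finset.mem_insert, Finset.mem_singleton, forall_eq_or_imp, forall_eq,
    mem_ofPred_eq, tw_self, tw_rev, N.s_rev]
  exact and_congr_right fun _ => ⟨fun h => ⟨by linarith [h.2], h.1⟩, fun h => ⟨h.2, by linarith [h.1]⟩⟩

theorem reg_one (e : Ed ι) : N.Reg {e} t R = lo (N.s e) (t e) ∩ hi N.r R := by
  ext x; simp [Lev.Reg, lo, hi, and_comm]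

theorem lo_rev (e : Ed ι) : lo (N.s (rev e)) a = hi (N.s e) (1 - a) := by
  ext x; simp only [lo, hi, N.s_rev, mem_ofPred_eq]; constructor <;> intro h <;> linarith

theorem hi_rev (e : Ed ι) : hi (N.s (rev e)) a = lo (N.s e) (1 - a) := by
  ext x; simp only [lo, hi, N.s_rev, mem_ofPred_eq]; constructor <;> intro h <;> linarith

theorem isOpen_reg : IsOpen (N.Reg J t R) :=
  (show N.Reg J t R = hi N.r R ∩ ⋂ e ∈ J, lo (N.s e) (t e) by ext; simp [lo, hi, Lev.Reg]) ▸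
    isOpen_hi.inter (isOpen_biInter_finset fun _ _ => isOpen_lo)

theorem reg_mono (h : ∀ e ∈ J, t e ≤ t' e) (hR : R' ≤ R) : N.Reg J t R ⊆ N.Reg J t' R' :=
  fun _ hx => ⟨hR.trans_lt hx.1, fun e he => (hx.2 e he).trans_le (h e he)⟩

theorem box_cpt (e : Ed ι) (a b R : ℝ) : IsCompact (box (N.s e) N.r a b R) :=
  (N.cpt_w e R (max |a| |b|)).of_isClosed_subset isClosed_box fun _ h =>
    ⟨h.1, abs_le_max_abs_abs h.2.1 h.2.2⟩

theorem cv_sub (U : Set X) : U ⊆ ⋃₀ N.cv := (subset_univ U).trans N.cv_cover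

/-- far small simplices have clique labels in the model -/
theorem lab_ct (h : ∀ e ∈ J, t e < 1) : ∃ R₀, ∀ R, R₀ ≤ R → ∀ n, ∀ σ ∈ (N.Sb (N.Reg J t R)).S n,
    vl N.lab σ ∈ w.Ct (w.Mod J) n := by
  have : ∀ᶠ R in atTop, N.R0 ≤ R ∧ ∀ e ∈ J, ∀ x, R < N.r x → N.s e x < t e → N.lab x ∉ w.B e := by
    refine (eventually_ge_atTop _).and ((eventually_all_finset J).2 fun e he => ?_)
    obtain ⟨R₁, h1⟩ := N.lab_side (1 - t e) (by linarith [h e he])
    exact (eventually_ge_atTop R₁).mono fun R hR x hx hs => h1 e x (hR.trans_lt hx) (by linarith)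
  obtain ⟨R₀, h0⟩ := eventually_atTop.1 this
  refine ⟨R₀, fun R hR n σ ⟨h1, Y, hY, h2⟩ => ⟨?_, ?_⟩⟩
  · rintro _ ⟨p, rfl⟩ e he
    have := h1 ⟨stdSimplex.vertex p, rfl⟩
    exact (h0 R hR).2 e he _ this.1 (this.2 e he)
  · rintro _ ⟨p, rfl⟩ _ ⟨q, rfl⟩
    exact N.lab_cl Y hY _ (h2 ⟨_, rfl⟩) _ (h2 ⟨_, rfl⟩) ((h0 R hR).1.trans_lt (h1 ⟨_, rfl⟩).1)
      ((h0 R hR).1.trans_lt (h1 ⟨_, rfl⟩).1)

variable (M : Md w)

variable (k) in
/-- the far class of the meridian -/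
def mc (e : Ed ι) : Co k 1 X := rs N.lab (t1 k (M.mer e))

theorem td_mer {e : Ed ι} (he : e ∈ J) : ∀ v ∈ w.Ct (w.Mod J) 2, td k (t1 k (M.mer e)) v = 0 := by
  intro v hv
  have m := fun p => hv.1 ⟨p, rfl⟩ e he
  have c := fun p q => hv.2 _ ⟨p, rfl⟩ _ ⟨q, rfl⟩
  simp [td1, t1, M.mer_add e (v 0) (v 1) (v 2) (m 0) (m 1) (m 2) (c 0 1) (c 1 2) (c 0 2)]

theorem mc_Z (h : ∀ e ∈ J, t e < 1) : ∃ R₀, ∀ R, R₀ ≤ R → ∀ e ∈ J,
    mc k N M e ∈ (N.Sb (N.Reg J t R)).Z k k 1 := by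
  obtain ⟨R₀, h0⟩ := lab_ct N h
  exact ⟨R₀, fun R hR e he => rs_Z (h0 R hR 2) (td_mer M he)⟩

theorem rs_t2 (e e' : Ed ι) : rs N.lab (t2 k (M.mer e) (M.mer e')) =
    cup (LinearMap.mul k k) 2 (mc k N M e) (mc k N M e') := by
  rw [mc, mc, cup_rs]
  congr 1
  funext v
  simp [tcup11, t1, t2]

/-- **degree of a wall** -/
theorem deg_wr [T2Space X] {O : Ori k 3 X} {u : kˣ} (hd : N.Deg M O u) (e : Ed ι) (h0 : 0 < a)
    (h1 : a < b) (h2 : b < 1) : ∃ R₀, ∀ R, R₀ ≤ R → ∀ c, Wr O N.cv (N.s e) N.r a b R c →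
      bd k c ∈ (Sm N.cv).ch k 2 →
      ev k (cup (LinearMap.mul k k) 2 (mc k N M e) (mc k N M (rev e))) (bd k c) = u := by
  obtain ⟨R₁, h3⟩ := hd e a b h0 h1 h2
  obtain ⟨R₂, h4⟩ := mc_Z (k := k) N M (J := {e, rev e}) (t := tw e a b) (by
    simp only [Finset.mem_insert, Finset.mem_singleton, forall_eq_or_imp, forall_eq, tw_self, tw_rev]
    exact ⟨h2, by linarith⟩)
  refine ⟨max R₁ R₂, fun R hR c hc hs => ?_⟩
  have hZ := cup_Z_sb (LinearMap.mul k k) (n := 2) rfl (h4 R ((le_max_right _ _).trans hR) e (by simp))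
    (h4 R ((le_max_right _ _).trans hR) (rev e) (by simp))
  rw [reg_tw] at hZ
  have hε : 0 < (b - a) / 2 := by linarith
  obtain ⟨K, z, k1, k2, k3, k4, k5, k6⟩ := hc.at N.cv_open N.cv_cover hε (m := (a + b) / 2) (by linarith)
    (by linarith) (box_cpt N e a b R)
  have C := cut_win N.cv_open N.cv_cover (s := N.s e) (r := N.r) (a := a) (b := b) (m := (a + b) / 2) hε
    (by linarith) le_rfl le_rfl (by linarith)
  set A := lo (N.s e) ((a + b) / 2) with hA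
  have sz := Sb.ch_mono cv_le k4
  have al : ∀ Y ∈ cv N.cv (N.s e) N.r ((b - a) / 2), ∀ T, cut k A ∈ (On Y).van k k 0 ∨
      Y ∩ T ⊆ T ∩ lo (N.s e) b := fun Y hY T => (C.l Y hY).imp (fun h => van_mono h cut_van)
    fun h x hx => ⟨hx.2, h hx.1⟩
  have sw : bd k (wall A z) ∈ (Sm N.cv).ch k 2 := Sb.bd_mem (D_sm cD _ sz)
  have e1 := h3 R ((le_max_left _ _).trans hR) K (cap' 4 (cut k A) z)
    (cap' 4 ((fun _ => 1) - cut k A) z) (wall A z) (cap' 3 (cut k A) (bd k z)) k1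
    (fun x hx => k2 ⟨hx.1, by linarith [hx.2.1], by linarith [hx.2.2]⟩)
    (by rwa [D_sub cD, cap'_one, add_sub_cancel])
    (Sml.mem_inf (ch_mono inter_subset_right (loc_sm cD (fun Y hY => al Y hY univ) k4 (mem_ch_univ _)))
      (D_sm cD _ sz))
    (Sml.mem_inf (loc_sm cD (T := univ) (fun Y hY => (C.r Y hY).imp
      (fun h => van_mono h one_sub_cut_van) fun h => inter_subset_left.trans h) k4 (mem_ch_univ _))
      (D_sm cD _ sz))
    (by rw [bd_cap' (by omega), wall]; norm_num; abel) (Sml.mem_inf (C.wall_mem k4) (D_sm cD _ sz))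
    (Sml.mem_inf (loc_sm cD (fun Y hY => al Y hY Kᶜ) (Sb.bd_mem k4) k5.rc) (D_sm cD _ (Sb.bd_mem sz)))
    (ch_mono (fun _ h => h.1) (C.bd_wall k4 k5.rc k3))
  rw [rs_t2] at e1
  obtain ⟨_, ⟨p, -, rfl⟩, y, hy, e2⟩ := Submodule.mem_sup.1 k6
  have e3 : bd k (wall A z) - bd k c = bd k (Sml.rho k N.cv _ y) := by
    rw [Sml.bd_rho, ← Sml.rho_of_sm k N.cv (Submodule.sub_mem _ sw hs), ← map_sub (bd k), ← e2, map_add,
      bd_bd, zero_add]
  have e4 := Sb.ev_B hZ (Sb.bd_mem_B (Sml.rho_inf k N.cv_open (cv_sub N _) hy))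
  rw [← e3, map_sub, e1, sub_eq_zero] at e4
  exact e4.symm

end lev

variable (E : End w F k X) (M : Md w)

include M in
/-- far cocycles of degree zero are constant -/
theorem far_zero (hJ : Face J) (h : Adm J t t') (R : ℝ) : ∃ R', ∀ (A : Type) [AddCommGroup A] [Module k A],
    ∀ φ ∈ (E.Sb (E.Reg J t' R)).Z k A 0, ∃ a, φ - (fun _ => a) ∈ (On (E.Reg J t R')).van k A 0 := by
  obtain ⟨R₁, h1⟩ := (E.l0 J t t' h).2 R
  obtain ⟨R₂, h2⟩ := lab_ct E.toLev (t := t) fun e he => (h e he).2.1.trans (h e he).2.2.1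
  refine ⟨max R₁ R₂, fun A _ _ φ hφ => ?_⟩
  obtain ⟨ψ, p1, p2⟩ := h1 A φ hφ
  obtain ⟨a, ha⟩ := M.h0 J hJ A ψ fun v hv => by rw [← td_int k]; exact p1 v hv
  refine ⟨a, fun σ hσ => ?_⟩
  obtain ⟨Y, hY, hx⟩ := E.cv_cover (mem_univ (σ (stdSimplex.vertex 0)))
  have := p2 σ (hσ.trans (reg_mono _ (fun _ _ => le_rfl) (le_max_left _ _)))
  rwa [Pi.sub_apply, rs_apply, ha _ (h2 _ (le_max_right _ _) 0 σ
    ⟨hσ, Y, hY, by rw [Tp.range_zero]; exact singleton_subset_iff.2 hx⟩)] at this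

/-- far cocycles of degree one are combinations of the meridian classes -/
theorem far_one (hJ : Face J) (h : Adm J t t') (R : ℝ) : ∃ R', ∀ (A : Type) [AddCommGroup A] [Module k A],
    ∀ φ ∈ (E.Sb (E.Reg J t' R)).Z k A 1, ∃ a : Ed ι → A,
      φ - (fun σ => ∑ e ∈ J, mc k E.toLev M e σ • a e) ∈ (E.Sb (E.Reg J t R')).Ex k A 1 := by
  obtain ⟨R₁, h1⟩ := E.l1 J t t' h R
  obtain ⟨R₂, h2⟩ := lab_ct E.toLev (t := t) fun e he => (h e he).2.1.trans (h e he).2.2.1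
  refine ⟨max R₁ R₂, fun A _ _ φ hφ => ?_⟩
  obtain ⟨ψ, p1, p2⟩ := h1 0 (by omega) A φ hφ
  obtain ⟨a, η, ha⟩ := M.h1 J hJ A ψ fun v hv => by rw [← td_int k]; exact p1 v hv
  refine ⟨a, ?_⟩
  have p3 := Sb.Ex_mono (Sb.le_inf (Sb.inf_le_left.trans (On_le (reg_mono E.toLev (fun _ _ => le_rfl)
    (le_max_left R₁ R₂)))) Sb.inf_le_right) p2
  have p4 : rs E.lab ψ - (fun σ => ∑ e ∈ J, mc k E.toLev M e σ • a e) ∈
      (E.Sb (E.Reg J t (max R₁ R₂))).Ex k A 1 := Sb.mem_Ex.2 ⟨rs E.lab η, fun σ hσ => by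
    rw [cob_rs, td_int]
    simp [rs_apply, ha _ (h2 _ (le_max_right _ _) 1 σ hσ), mc, t1, Int.cast_smul_eq_zsmul]⟩
  simpa using Submodule.add_mem _ p3 p4

/-- far cocycles of degree two of a window are multiples of the product of the meridian classes -/
theorem far_two {e : Ed ι} (hJ : J = {e, rev e}) (h : Adm J t t') (R : ℝ) :
    ∃ R', ∀ (A : Type) [AddCommGroup A] [Module k A], ∀ φ ∈ (E.Sb (E.Reg J t' R)).Z k A 2, ∃ a : A,
      φ - (fun σ => cup (LinearMap.mul k k) 2 (mc k E.toLev M e) (mc k E.toLev M (rev e)) σ • a) ∈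
        (E.Sb (E.Reg J t R')).Ex k A 2 := by
  obtain ⟨R₁, h1⟩ := E.l1 J t t' h R
  obtain ⟨R₂, h2⟩ := lab_ct E.toLev (t := t) fun e he => (h e he).2.1.trans (h e he).2.2.1
  refine ⟨max R₁ R₂, fun A _ _ φ hφ => ?_⟩
  obtain ⟨ψ, p1, p2⟩ := h1 1 le_rfl A φ hφ
  subst hJ
  rw [mod_tw] at h2 p1
  obtain ⟨a, η, ha⟩ := M.h2 e A ψ fun v hv => by rw [← td_int k]; exact p1 v hv
  refine ⟨a, ?_⟩
  have p3 := Sb.Ex_mono (Sb.le_inf (Sb.inf_le_left.trans (On_le (reg_mono E.toLev (fun _ _ => le_rfl)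
    (le_max_left R₁ R₂)))) Sb.inf_le_right) p2
  have p4 : rs E.lab ψ - (fun σ => cup (LinearMap.mul k k) 2 (mc k E.toLev M e)
      (mc k E.toLev M (rev e)) σ • a) ∈ (E.Sb (E.Reg {e, rev e} t (max R₁ R₂))).Ex k A 2 :=
    Sb.mem_Ex.2 ⟨rs E.lab η, fun σ hσ => by
      rw [cob_rs, td_int, ← rs_t2]
      simp [rs_apply, ha _ (h2 _ (le_max_right _ _) 2 σ hσ), t2, ← Int.cast_smul_eq_zsmul k]⟩
  simpa using Submodule.add_mem _ p3 p4

theorem fr_of_span {P Q : Tp.Sb X} (s : Finset (Co k n X))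
    (h : ∀ φ ∈ Q.Z k k n, ∃ x ∈ Submodule.span k (s : Set (Co k n X)), φ - x ∈ P.Ex k k n) :
    FR (Q.Z k k n) (P.Ex k k n) :=
  ⟨_, Submodule.fg_span s.finite_toSet, fun φ hφ => by
    obtain ⟨x, h1, h2⟩ := h φ hφ
    exact Submodule.mem_sup.2 ⟨x, h1, _, h2, by abel⟩⟩

include M in
/-- tameness of the far regions -/
theorem far_fr (hJ : Face J) (h : Adm J t t') (hn : n ≤ 1 ∨ n = 2 ∧ ∃ e, J = {e, rev e}) (R : ℝ) :
    ∃ R', FR ((On (E.Reg J t R')).ch k n ⊓ cyc k X n) ((On (E.Reg J t' R)).B k n) := by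
  classical
  suffices ∃ R', FR ((E.Sb (E.Reg J t' R)).Z k k n) ((E.Sb (E.Reg J t R')).Ex k k n) by
    obtain ⟨R', h1⟩ := this
    refine ⟨max R R', fr_of_sm E.cv_open (cv_sub _ _)
      (reg_mono _ (fun e he => (h e he).2.1.le) (le_max_left _ _)) (fr_hom_of_coh (h1.mono
        (Sb.Z_mono Sb.inf_le_left) (Sb.Ex_mono (Sb.le_inf (Sb.inf_le_left.trans (On_le
          (reg_mono E.toLev (fun _ _ => le_rfl) (le_max_right R R')))) Sb.inf_le_right))))⟩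
  rcases hn with hn | ⟨rfl, e, he⟩
  · interval_cases n
    · obtain ⟨R', h1⟩ := far_zero E M hJ h R
      refine ⟨R', fr_of_span {fun _ => 1} fun φ hφ => ?_⟩
      obtain ⟨a, ha⟩ := h1 k φ hφ
      refine ⟨_, ?_, Sb.van_mono Sb.inf_le_left ha⟩
      rw [show (fun _ => a : Co k 0 X) = a • fun _ => 1 by funext; simp]
      exact Submodule.smul_mem _ _ (Submodule.subset_span (by simp))
    · obtain ⟨R', h1⟩ := far_one E M hJ h R
      refine ⟨R', fr_of_span (J.image (mc k E.toLev M)) fun φ hφ => ?_⟩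
      obtain ⟨a, ha⟩ := h1 k φ hφ
      refine ⟨_, ?_, ha⟩
      rw [show (fun σ => ∑ e ∈ J, mc k E.toLev M e σ • a e) = ∑ e ∈ J, a e • mc k E.toLev M e by
        funext; simp [mul_comm]]
      exact Submodule.sum_mem _ fun e he => Submodule.smul_mem _ _
        (Submodule.subset_span (by simpa using ⟨e, he, rfl⟩))
  · obtain ⟨R', h1⟩ := far_two E M he h R
    refine ⟨R', fr_of_span {cup (LinearMap.mul k k) 2 (mc k E.toLev M e) (mc k E.toLev M (rev e))}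
      fun φ hφ => ?_⟩
    obtain ⟨a, ha⟩ := h1 k φ hφ
    refine ⟨_, ?_, ha⟩
    rw [show (fun σ => cup (LinearMap.mul k k) 2 (mc k E.toLev M e) (mc k E.toLev M (rev e)) σ • a) =
      a • cup (LinearMap.mul k k) 2 (mc k E.toLev M e) (mc k E.toLev M (rev e)) by
        funext; simp [mul_comm]]
    exact Submodule.smul_mem _ _ (Submodule.subset_span (by simp))

/-- far cocycles which are exact near infinity are exact -/
theorem far_ex (h : Adm J t t') (R₁ : ℝ) : ∃ R₂, ∀ n ≤ 1, ∀ (A : Type) [AddCommGroup A] [Module k A],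
    ∀ φ ∈ (E.Sb (E.Reg J t' R₁)).Z k A (n + 1), ∀ R, φ ∈ (E.Sb (E.Reg J t R)).Ex k A (n + 1) →
      φ ∈ (E.Sb (E.Reg J t R₂)).Ex k A (n + 1) := by
  obtain ⟨R₂, h1⟩ := E.l1 J t t' h R₁
  obtain ⟨R₃, h2⟩ := lab_ct E.toLev (t := t) fun e he => (h e he).2.1.trans (h e he).2.2.1
  obtain ⟨t₀, h0⟩ := adm_lo h
  have mo : ∀ {R R'}, R ≤ R' → (E.Sb (E.Reg J t R')).Le (E.Sb (E.Reg J t R)) := fun hR =>
    Sb.le_inf (Sb.inf_le_left.trans (On_le (reg_mono E.toLev (fun _ _ => le_rfl) hR))) Sb.inf_le_right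
  refine ⟨max R₂ R₃, fun n hn A _ _ φ hφ R hR => ?_⟩
  obtain ⟨ψ, p1, p2⟩ := h1 n hn A φ hφ
  obtain ⟨η, hη⟩ := E.l2 J t₀ t h0 (max R R₂) n hn A ψ p1 (by
    simpa using Submodule.sub_mem _ (Sb.Ex_mono (mo (le_max_left R R₂)) hR)
      (Sb.Ex_mono (mo (le_max_right R R₂)) p2))
  have p3 : rs E.lab ψ ∈ (E.Sb (E.Reg J t (max R₂ R₃))).Ex k A (n + 1) :=
    Sb.mem_Ex.2 ⟨rs E.lab η, fun σ hσ => by
      simp [cob_rs, rs_apply, hη _ (h2 _ (le_max_right _ _) _ σ hσ)]⟩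
  simpa using Submodule.add_mem _ (Sb.Ex_mono (mo (le_max_left R₂ R₃)) p2) p3

/-- far cycles can be pushed to infinity -/
theorem far_push (h : Adm J t t') (R₁ : ℝ) : ∃ R₂, R₁ ≤ R₂ ∧ ∀ n ≤ 1, ∀ R,
    (On (E.Reg J t R₂)).ch k (n + 1) ⊓ cyc k X (n + 1) ≤
      RN k (E.Reg J t' R₁) (E.Reg J t' R) (n + 1) := by
  obtain ⟨R₂, h1⟩ := far_ex E h R₁
  have ht : ∀ e ∈ J, t e ≤ t' e := fun e he => (h e he).2.1.le
  refine ⟨max R₁ R₂, le_max_left _ _, fun n hn R c hc => mem_RN fun f f1 f2 => ?_⟩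
  have f3 := h1 n hn k f (Sb.Z_mono Sb.inf_le_left f1) R (Submodule.mem_sup_right
    (Sb.van_mono (Sb.inf_le_left.trans (On_le (reg_mono _ ht le_rfl))) f2))
  exact ev_ex' (ex_of_sm E.cv_open (cv_sub _ _) (Sb.Z_mono (On_le (reg_mono _ ht (le_max_left _ _))) f1)
    (Sb.Ex_mono (Sb.le_inf (Sb.inf_le_left.trans (On_le
      (reg_mono E.toLev (fun _ _ => le_rfl) (le_max_right R₁ R₂)))) Sb.inf_le_right) f3)) hc.1 hc.2

theorem end_ea (e : Ed ι) (h0 : 0 < a₁) (h1 : a₁ < a'') (h2 : a'' < b'') (h3 : b'' < b₁) (h4 : b₁ < 1)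
    (R₁ : ℝ) : ∃ R₂, R₁ ≤ R₂ ∧ ∀ n ≤ 1, EA k (E.s e) E.r (n + 1) a'' b'' R₂ a₁ b₁ R₁ := by
  obtain ⟨R₂, h5, h6⟩ := far_push E (adm_tw e h0 h1 h2 h3 h4) R₁
  exact ⟨R₂, h5, fun n hn R => by simpa only [reg_tw] using h6 n hn R⟩

variable [T2Space X] [ChartedSpace (EE 4) X] (hX : Acy k (univ : Set X) univ)

include M in
/-- **windows are q-tame** -/
theorem end_win (e : Ed ι) (h0 : 0 ≤ a) (h1 : a < a') (h2 : a' < b') (h3 : b' < b) (h4 : b ≤ 1)
    (hn : n ≤ 2) : FR ((On (win (E.s e) a' b')).ch k n ⊓ cyc k X n) ((On (win (E.s e) a b)).B k n) := by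
  obtain ⟨R, h⟩ := far_fr E M (face_tw e) (adm_tw e (a := (2 * a + a') / 3) (a' := (a + 2 * a') / 3)
    (b' := (b + 2 * b') / 3) (b := (2 * b + b') / 3) (by linarith) (by linarith) (by linarith)
    (by linarith) (by linarith)) (n := n) (by
      rcases hn.lt_or_eq with h | h
      exacts [Or.inl (by omega), Or.inr ⟨h, e, rfl⟩]) 0
  rw [reg_tw, reg_tw] at h
  exact tame_win 4 (a' := (a + 2 * a') / 3) (b' := (b + 2 * b') / 3) (by linarith) (by linarith)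
    (by linarith) (by linarith) (box_cpt _ e _ _)
    (h.mono le_rfl (B_mono (fw_le.trans (win_mono (by linarith) (by linarith)))))

include M hX

/-- **sides are q-tame** -/
theorem end_lo (e : Ed ι) (h0 : 0 < a) (h1 : a < b) (h2 : a < 1) (hn : n ≤ 2) :
    FR ((On (lo (E.s e) a)).ch k n ⊓ cyc k X n) ((On (lo (E.s e) b)).B k n) :=
  (tame_sides hX (show a / 2 < a by linarith) (by linarith) (lt_min h1 h2).le
    (end_win E M e le_rfl (by linarith) (by linarith) (lt_min h1 h2) (min_le_right _ _) hn)).1.mono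
    le_rfl (B_mono (lo_mono (min_le_left _ _)))

theorem end_hi (e : Ed ι) (h0 : 0 < b) (h1 : a < b) (h2 : b < 1) (hn : n ≤ 2) :
    FR ((On (hi (E.s e) b)).ch k n ⊓ cyc k X n) ((On (hi (E.s e) a)).B k n) := by
  simpa only [lo_rev, sub_sub_cancel] using
    end_lo E M hX (rev e) (a := 1 - b) (b := 1 - a) (by linarith) (by linarith) (by linarith) hn

theorem end_lo_coh (e : Ed ι) (h0 : 0 < a) (h1 : a < b) (h2 : a < 1) (hn : n ≤ 2) :
    FR ((On (lo (E.s e) b)).Z k k n) ((On (lo (E.s e) a)).Ex k k n) :=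
  fr_coh_of_hom (end_lo E M hX e h0 h1 h2 hn)

theorem end_hi_coh (e : Ed ι) (h0 : 0 < b) (h1 : a < b) (h2 : b < 1) (hn : n ≤ 2) :
    FR ((On (hi (E.s e) a)).Z k k n) ((On (hi (E.s e) b)).Ex k k n) :=
  fr_coh_of_hom (end_hi E M hX e h0 h1 h2 hn)

/-- regions behind edges which point away from each other are q-tame -/
theorem end_star (hn : n ≤ 2) (J : Finset (Ed ι)) (hJ : ∀ e ∈ J, ∀ e' ∈ J, e ≠ e' → Bey (rev e) e')
    (h : ∀ e ∈ J, 0 < t e ∧ t e < t' e ∧ t e < 1) :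
    FR ((On (⋂ e ∈ J, lo (E.s e) (t e))).ch k n ⊓ cyc k X n)
      ((On (⋂ e ∈ J, lo (E.s e) (t' e))).B k n) := by
  induction J using Finset.induction_on with
  | empty => simpa using fr_univ hX
  | insert e J he ih =>
    rw [Finset.set_biInter_insert, Finset.set_biInter_insert]
    have m : ∀ {x}, x ∈ J → x ∈ insert e J := Finset.mem_insert_of_mem
    have h1 := h e (Finset.mem_insert_self _ _)
    refine fr_inter hX isOpen_lo (isOpen_biInter_finset fun _ _ => isOpen_lo) ?_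
      (end_lo E M hX e h1.1 h1.2.1 h1.2.2 hn)
      (ih (fun a ha b hb => hJ a (m ha) b (m hb)) fun a ha => h a (m ha))
    refine eq_univ_of_forall fun x => (em (x ∈ lo (E.s e) (t' e))).imp id fun hx => ?_
    refine mem_iInter₂.2 fun e' he' => ?_
    have h2 := E.s_bey _ _ x (hJ e (Finset.mem_insert_self _ _) e' (m he') fun h => he (h ▸ he'))
    have h3 := h e' (m he')
    rw [E.s_rev] at h2
    show E.s e' x < t' e'
    linarith [not_lo hx, h1.1, h1.2.1, h3.1, h3.2.1]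

omit M in
/-- **detection on the windows of the end structure**, homological form -/
theorem end_det {O : Ori k 3 X} (hO : O.ND) (e : Ed ι) (h0 : 0 < a₁) (h1 : a < a') (h2 : a' ≤ a₁)
    (h3 : a₁ < a'') (h4 : a'' < b'') (h5 : b'' < b₁) (h6 : b₁ ≤ b') (h7 : b' < b) (h8 : b₁ < 1) (R : ℝ) :
    ∃ R₂, R ≤ R₂ ∧ ∀ {HL HR : Submodule k (Co k 1 X)}, HL ≤ (On (lo (E.s e) b)).Z k k 1 →
      HR ≤ (On (hi (E.s e) a)).Z k k 1 →
      (On (lo (E.s e) a₁)).Z k k 1 ≤ HL ⊔ (On (lo (E.s e) a')).Ex k k 1 →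
      (On (hi (E.s e) b₁)).Z k k 1 ≤ HR ⊔ (On (hi (E.s e) b')).Ex k k 1 →
      ∀ y, Wr O E.cv (E.s e) E.r a b R y → ∀ c ∈ (On (win (E.s e) a'' b'')).ch k 2,
        bd k c ∈ (On (fw (E.s e) E.r a'' b'' R₂)).ch k 1 →
        (∃ x ∈ HL, ∃ x' ∈ HR, c - cap 2 (x + x') y ∈ RN k (win (E.s e) a b) (fw (E.s e) E.r a b R) 2) ∧
        ∃ x ∈ HL, ∃ x' ∈ HR, c - cap' 2 (x + x') y ∈ RN k (win (E.s e) a b) (fw (E.s e) E.r a b R) 2 := by
  obtain ⟨R₂, r1, r2⟩ := end_ea E e h0 h3 h4 h5 h8 (R + 1)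
  exact ⟨R₂, by linarith, fun zl zr wl wr y hy c hc hb =>
    det_re (d := 2) (i := 0) (j := 1) E.cv_open E.cv_cover hO hX rfl h1 h2 h3.le h4.le h5.le h6 h7 le_rfl
      r1 zl zr wl wr (r2 0 (by omega)) hy hc hb⟩

end Crest.Agent.N255.Wn

end
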