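import Crest.Agent.N255.Wn.En
import Crest.Agent.N255.Tp.Phi

/-!
# Row 255 (helper46): q-tameness and detection for compact supports restricted to open sets
-/

set_option autoImplicit false
open Set Filter Topology

noncomputable section

namespace Crest.Agent.N255.Wn

open Crest.Agent.N255.Tp Crest.Agent.N255.Wi Crest.Agent.N255.En Crest.Agent.N255.Pt
  Crest.Agent.N255.Lv

variable {X : Type} [TopologicalSpace X] {k : Type} [Field k] {n i j d : ℕ} [T2Space X]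
  {A : Type} [AddCommGroup A] [Module k A] {a a' a₁ b b' b₁ R : ℝ}

omit [T2Space X] in
/-- compactly supported cochains vanish far away -/
theorem Cc_far (r : C(X, ℝ)) {U : Set X} {φ : Co A n X} (h : φ ∈ Cc k U A n) :
    ∃ R₀, ∀ R, R₀ ≤ R → φ ∈ (On (hi r R)).van k A n := by
  obtain ⟨K, hK, -, h⟩ := h
  obtain ⟨M, hM⟩ := (hK.image r.continuous).bddAbove
  exact ⟨M, fun R hR => van_mono (fun x hx h => by linarith [hM ⟨x, h, rfl⟩, show R < r x from hx]) h⟩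

theorem hc0 [ChartedSpace (EE (d + 1)) X] {O : Ori k d X} (hO : O.ND) (hX : Acy k (univ : Set X) univ)
    [Module.Finite k A] (h0 : 0 < n) (hn : n ≤ d) : Hc0 k X A n := by
  obtain ⟨n, rfl⟩ : ∃ m, n = m + 1 := ⟨n - 1, by omega⟩
  exact (hc0_of fun _ h h' => hc_zero hO hX (by omega) h h').fin

omit [T2Space X] in
theorem hc0_zero (hX : Acy k (univ : Set X) univ) (hn : ¬IsCompact (univ : Set X)) : Hc0 k X A 0 := by
  rintro φ ⟨⟨K, hK, -, h1⟩, h2⟩ σ -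
  obtain ⟨x, hx⟩ : Kᶜ.Nonempty := nonempty_compl.2 fun h => hn (h ▸ hK)
  have := Sb.ev_B h2 (hX 0 (show sg k σ - sg k (ContinuousMap.const _ x) ∈ _ from
    ⟨mem_ch_univ _, show aug k _ = 0 by rw [map_sub, aug_sg, aug_sg, sub_self]⟩))
  rwa [map_sub, Tp.ev_sg, Tp.ev_sg, h1 (ContinuousMap.const _ x) (by rintro _ ⟨_, rfl⟩; exact hx), sub_zero] at this

section re
variable [ChartedSpace (EE (d + 1 + 1)) X] {O : Ori k (d + 1) X} {𝒞 : Set (Set X)} {s r : C(X, ℝ)}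
  {w : Ch k (d + 1) X} {HL HR : Submodule k (Co k (i + 1) X)}

/-- **detection**: a cocycle of the window which vanishes far away and kills the cap cycles is exact -/
theorem det_phi (ho : ∀ C ∈ 𝒞, IsOpen C) (hc : univ ⊆ ⋃₀ 𝒞) (hO : O.ND)
    (hX : Acy k (univ : Set X) univ) (hij : i + 1 + j = d) (h1 : a < a') (h2 : a' ≤ a₁) (h3 : a₁ ≤ b₁)
    (h4 : b₁ ≤ b') (h5 : b' < b) (hK : IsCompact (box s r a b R))
    (zl : HL ≤ (On (win s a b)).Z k k (i + 1)) (zr : HR ≤ (On (win s a b)).Z k k (i + 1))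
    (wl : (On (lo s a₁)).Z k k (i + 1) ≤ HL ⊔ (On (lo s a')).Ex k k (i + 1))
    (wr : (On (hi s b₁)).Z k k (i + 1) ≤ HR ⊔ (On (hi s b')).Ex k k (i + 1))
    (hw : Wr O 𝒞 s r a b R w) [Module.Finite k A] {f : Co A (j + 1) X}
    (f1 : f ∈ (On (win s a b)).Z k A (j + 1)) (f2 : f ∈ (On (fw s r a b R)).van k A (j + 1))
    (h : (∀ x, x ∈ HL ∨ x ∈ HR → ev k f (cap (j + 1) x w) = 0) ∨
      ∀ x, x ∈ HL ∨ x ∈ HR → ev k f (cap' (j + 1) x w) = 0) :
    f ∈ BP k (win s a₁ b₁) A (j + 1) := by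
  obtain ⟨θ, t1, t2⟩ := det_b_re ho hc hO hX hij h1 h2 h3 h4 h5 hK zl zr wl wr hw ⊥ f1 f2 h
  exact mem_BP.2 ⟨θ, t1, t2⟩

end re

variable {ι S : Type} [DecidableEq ι] [MulAction (FreeGroup ι) S] {w : En.Wl ι S}
  {F : Subgroup (FreeGroup ι)} [MulAction F X] (E : End w F k X) (M : Md w) [ChartedSpace (EE 4) X]
  {O : Ori k 3 X} (hO : O.ND) (hX : Acy k (univ : Set X) univ)
include M hO hX

theorem phi_lo (e : Ed ι) (h0 : 0 ≤ a) (h1 : a < b) (h2 : b ≤ 1) (hn : n ≤ 1) :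
    FR (ZP k (lo (E.s e) b) k (n + 1)) (BP k (lo (E.s e) a) k (n + 1)) := by
  obtain ⟨j, hj⟩ : ∃ j, n + 1 + (j + 1) = 3 := ⟨1 - n, by omega⟩
  exact fr_phi (d := 3) hO cD isOpen_lo (isOpen_hi (t := (a + b) / 2)) (isOpen_hi (t := a))
    (fun x hx => show (a + b) / 2 < E.s e x by linarith [not_lo hx]) (hi_mono (by linarith))
    (lo_mono h1.le) (disjoint_left.2 fun x h h' => hi_le_compl le_rfl h' h) hj
    (fun c h => hX _ ⟨mem_ch_univ c, h⟩) (fun c h => hX _ ⟨mem_ch_univ c, h⟩)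
    (end_hi E M hX e (by linarith) (by linarith) (by linarith) (by omega))

theorem phi_hi (e : Ed ι) (h0 : 0 ≤ a) (h1 : a < b) (h2 : b ≤ 1) (hn : n ≤ 1) :
    FR (ZP k (hi (E.s e) a) k (n + 1)) (BP k (hi (E.s e) b) k (n + 1)) := by
  simpa only [lo_rev, sub_sub_cancel] using
    phi_lo E M hO hX (rev e) (a := 1 - b) (b := 1 - a) (by linarith) (by linarith) (by linarith) hn

theorem phi_win (e : Ed ι) (h0 : 0 ≤ a) (h1 : a < a') (h2 : a' ≤ b') (h3 : b' < b) (h4 : b ≤ 1)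
    (hn : n ≤ 1) : FR (ZP k (win (E.s e) a b) k (n + 1)) (BP k (win (E.s e) a' b') k (n + 1)) := by
  refine (((phi_lo E M hO hX e (by linarith) h3 h4 hn).mono le_rfl (BP_mono win_lo)).sup
    ((phi_hi E M hO hX e h0 h1 (by linarith) hn).mono le_rfl (BP_mono win_hi))).mono
    (fun φ hφ => ?_) le_rfl
  rw [win_eq] at hφ
  obtain ⟨y, h5, h6⟩ := mv_surj isOpen_lo isOpen_hi (lo_union_hi (by linarith))
    (hc0 (d := 3) hO hX (by omega) (by omega)) hφ
  exact Submodule.mem_sup.2 ⟨_, h6, y, h5, by abel⟩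

end Crest.Agent.N255.Wn

end
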