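import Crest.Agent.N255.Wn.WdM

/-!
# Row 255 (helper46): the two spanning facts used at a vertex
-/

set_option autoImplicit false
open Set

noncomputable section

namespace Crest.Agent.N255.Ma.Wd
open Tp Nv Pt Lv En Wn Le

variable {F : Subgroup F3} {S : Type} [MulAction F3 S] {X : Type} [TopologicalSpace X]
  [MulAction F X] [ContinuousConstSMul F X] {k : Type} [Field k] {g : Geo F k S X} {u R₀ : ℝ} {n : ℕ}
  {J : Type} [Fintype J] {τ : Ty J} {e : Ed (Fin 3)} {o : Bool} (ω : Wd g u R₀ n τ e o) {m : ℕ} {t : ℝ}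

/-- the classes beyond the wall are spanned by the far classes (and the holonomy class at an `M` slot) -/
theorem sp_far (hm : m < n) (h0 : 0 < t) (h : t < ω.l (m + 1)) {H : Set (Co k 1 X)}
    (h1 : ∀ j, τ.kd j ≠ o → τ.sc j ≤ m → ω.h j ∈ H)
    (h2 : o = true → Or.Xe g.E.toLev g.M k (rev (me e o)) R₀ - ω.η ∈ H) :
    (On (hi (g.E.s e) t)).Z k k 1 ≤
      Submodule.span k H ⊔ (SB g.E.cv (hi (g.E.s e) (ω.l (m + 2)))).Ex k k 1 := by
  have a : ω.Hs false m ⊆ H := by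
    rintro _ ⟨j, c, d, rfl⟩
    exact h1 j (by simpa using c) d
  cases o
  · exact (ω.span_hi_M hm h0 h).trans (sup_le_sup (Submodule.span_mono a) (Sb.Ex_mono Sb.inf_le_left))
  · refine (ω.span_hi' hm h0 h).trans (sup_le (Submodule.span_le.2 ?_)
      ((Sb.Ex_mono Sb.inf_le_left).trans le_sup_right))
    rintro _ (rfl | c)
    · exact Submodule.mem_sup.2 ⟨_, Submodule.subset_span (h2 rfl), _,
        Submodule.mem_sup_right (Sb.van_mono Sb.inf_le_right ω.bz.sm), by abel⟩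
    · exact Submodule.mem_sup_left (Submodule.subset_span (a c))

/-- the classes behind the wall extend to the centre up to exact ones -/
theorem cst_on (hm : m < n) (h : ω.l (m + 1) < t) (h1 : t < 1) : (On (lo (g.E.s e) t)).Z k k 1 ≤
    (On (lo (g.E.s e) (ω.r n))).Z k k 1 ⊔ (On (lo (g.E.s e) (ω.l m))).Ex k k 1 := by
  have a : Submodule.span k (ω.Hs true m) ≤ (On (lo (g.E.s e) (ω.r n))).Z k k 1 :=
    Submodule.span_le.2 (by rintro _ ⟨j, c, -, rfl⟩; exact ω.h_lo c)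
  cases o
  · refine (ω.span_lo hm h h1).trans (sup_le_sup_right (Submodule.span_le.2 ?_) _)
    rintro _ (rfl | c)
    · exact Sb.Z_mono (On_le (lo_mono (ω.lt_b n).le)) ω.hw_Z
    · exact a (Submodule.subset_span c)
  · exact (sp_A (lo_mono (ω.lr.l_le m.le_succ)) (ω.sp_lo_M (ω.a_lt _) h h1)
      (ω.zp_lo hm le_rfl (ω.lr.lt _ _).le)).trans (sup_le_sup_right a _)

theorem cst_sb (hm : m < n) : (On (lo (g.E.s e) (ω.l (m + 2)))).Z k k 1 ≤
    (SB g.E.cv (lo (g.E.s e) (ω.r n))).Z k k 1 ⊔ (SB g.E.cv (lo (g.E.s e) (ω.l m))).Ex k k 1 :=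
  (ω.cst_on hm (ω.lr.ml (m + 1).lt_succ_self) (((ω.lr.lt _ 0).trans ω.rb).trans ω.b_lt)).trans
    (sup_le_sup (Sb.Z_mono Sb.inf_le_left) (Sb.Ex_mono Sb.inf_le_left))

end Crest.Agent.N255.Ma.Wd
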