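import Crest.Agent.N255.Wn.Det

/-!
# Row 255 (helper46): window detection with bounded supports

A cocycle of a window which vanishes far away and which kills the cap cycles of the wall is, on a smaller
window, the coboundary of a cochain with compact support.  No condition at the end is needed.
-/

set_option autoImplicit false
open Set Filter Topology

noncomputable section

namespace Crest.Agent.N255.Wn

open Crest.Agent.N255.Tp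

variable {X : Type} [TopologicalSpace X] {n i j d : ℕ} {𝒰 : Set (Set X)}
  {A A₁ A₂ L R L' R' L₁ R₁ W W₁ W₂ F T U V K K₁ K₂ : Set X}

section ring

variable {k : Type} [CommRing k] {M : Type} [AddCommGroup M] [Module k M]

variable (k 𝒰) in
/-- the honest cochain which agrees with `φ` on small simplices -/
def hon (φ : Co M n X) : Co M n X := fun σ => ev k φ (Sml.rho k 𝒰 n (sg k σ))

theorem ev_hon (φ : Co M n X) (c : Ch k n X) : ev k (hon 𝒰 k φ) c = ev k φ (Sml.rho k 𝒰 n c) :=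
  (map_eq_ev ((ev k φ).comp (Sml.rho k 𝒰 n)) c).symm

theorem cob_hon (φ : Co M n X) : cob k (hon 𝒰 k φ) = hon 𝒰 k (cob k φ) := by
  funext σ
  rw [← ev_sg (k := k) (cob k _), ← ev_bd, ev_hon, ← Sml.bd_rho, ev_bd, hon]

theorem hon_sub (φ ψ : Co M n X) : hon 𝒰 k (φ - ψ) = hon 𝒰 k φ - hon 𝒰 k ψ := by
  funext σ; simp [hon, ev_sub]

theorem hon_smul (r : k) (φ : Co M n X) : hon 𝒰 k (r • φ) = r • hon 𝒰 k φ := by
  funext σ; simp [hon, ev_smul]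

theorem hon_sm (φ : Co M n X) : hon 𝒰 k φ - φ ∈ (Sm 𝒰).van k M n := fun σ h => by
  simp [hon, Sml.rho_of_sm k 𝒰 (Sb.sg_mem h)]

theorem hon_van (ho : ∀ Y ∈ 𝒰, IsOpen Y) (hc : univ ⊆ ⋃₀ 𝒰) {φ : Co M n X}
    (h : ∀ Y ∈ 𝒰, φ ∈ (On (Y ∩ T)).van k M n) : hon 𝒰 k φ ∈ (On T).van k M n := fun _ hσ =>
  Sb.ev_eq_zero (P := (On T).inf (Sm 𝒰)) (fun τ ⟨h1, Y, hY, h2⟩ => h Y hY τ (subset_inter h2 h1))
    (Sml.rho_inf k ho ((subset_univ T).trans hc) (Sb.sg_mem hσ))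

theorem hon_zero (ho : ∀ Y ∈ 𝒰, IsOpen Y) (hc : univ ⊆ ⋃₀ 𝒰) {φ : Co M n X}
    (h : φ ∈ (Sm 𝒰).van k M n) : hon 𝒰 k φ = 0 :=
  eq_zero_of_van_univ (hon_van ho hc fun _ hY =>
    van_mono inter_subset_left (Sb.van_mono (On_le_Sm hY) h))

/-- a cocycle of `U` differs from its honest form by a coboundary which is as local as the cocycle -/
theorem sub_hon {f : Co M (n + 1) X} (hf : f ∈ (On U).Z k M (n + 1)) :
    ∃ e : Co M n X, f - hon 𝒰 k f - cob k e ∈ (On U).van k M (n + 1) ∧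
      ∀ T, f ∈ (On (U ∩ T)).van k M (n + 1) → e ∈ (On T).van k M n := by
  set g : Co M n X := fun τ => ev k f (Sml.DD k 𝒰 n (sg k τ)) with hg
  refine ⟨(On U).res g, ?_, fun T hT => Sb.res_mem fun τ hτ =>
    Sb.ev_eq_zero hT (Sml.DD_mem k 𝒰 _ (Sb.sg_mem (subset_inter hτ.1 hτ.2)))⟩
  have h1 : f - hon 𝒰 k f - cob k g ∈ (On U).van k M (n + 1) := fun σ hσ => by
    have e1 : cob k g σ = ev k f (Sml.DD k 𝒰 n (bd k (sg k σ))) := by
      rw [← ev_sg (k := k) (cob k g), ← ev_bd]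
      exact (map_eq_ev ((ev k f).comp (Sml.DD k 𝒰 n)) _).symm
    have e2 : ev k f (bd k (Sml.DD k 𝒰 (n + 1) (sg k σ))) = 0 :=
      Sb.ev_B hf (Sb.bd_mem_B (Sml.DD_mem k 𝒰 _ (Sb.sg_mem hσ)))
    simp [hon, Sml.rho_succ, e1, e2]
  have := Submodule.add_mem _ h1 (Sb.cob_mem (Sb.sub_res (k := k) (P := On U) g))
  rwa [map_sub, sub_add_sub_cancel] at this

theorem ev_ex {P : Sb X} {φ : Co M (n + 1) X} (h : φ ∈ P.Ex k M (n + 1)) {c : Ch k (n + 1) X}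
    (hc : c ∈ P.ch k (n + 1)) (h0 : bd k c = 0) : ev k φ c = 0 := by
  obtain ⟨ψ, hψ⟩ := Sb.mem_Ex.1 h
  rw [Sb.ev_congr hψ hc, ← ev_bd, h0, map_zero]

end ring

variable {k : Type} [Field k] [T2Space X]

/-- no compactly supported cohomology below the top degree -/
theorem hc_zero [ChartedSpace (EE (d + 1)) X] {O : Ori k d X} (hO : O.ND)
    (hX : Acy k (univ : Set X) univ) (hi : i < d) {φ : Co k (i + 1) X}
    (hφ : φ ∈ Cc k univ k (i + 1)) (h0 : cob k φ = 0) : ∃ ψ ∈ Cc k univ k i, cob k ψ = φ := by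
  refine (pdS_holds k d X O hO _ cD univ isOpen_univ).2 i φ hφ h0 fun j hj => ?_
  obtain ⟨c, hc, h1, h2⟩ := Ori.du_exists (O := O) fundS_holds cD hj isOpen_univ hφ h0
  obtain ⟨j, rfl⟩ : ∃ j', j = j' + 1 := ⟨j - 1, by omega⟩
  exact h2.congr (by simpa using hX (j + 1) ⟨hc, h1⟩)

variable [ChartedSpace (EE (d + 1 + 1)) X] {O : Ori k (d + 1) X}

/-- one side: the class `f ∪ δχ` dies in `L₁` -/
theorem side (hO : O.ND) (C : Cut 𝒰 A univ univ A Aᶜ W₁) (hij : i + 1 + j = d) (hL : IsOpen L₁)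
    (hK : IsCompact K₁) (hKL : K₁ ⊆ L₁) (hF : W₁ \ K₁ ⊆ F) (hW : W₁ ⊆ W) (hW' : W₁ ⊆ L')
    {H : Submodule k (Co k (i + 1) X)} (hH : H ≤ (On W).Z k k (i + 1))
    (wl : (On L₁).Z k k (i + 1) ≤ H ⊔ (On L').Ex k k (i + 1)) {z : Ch k (d + 2) X}
    (hz : z ∈ (Sm 𝒰).ch k (d + 2)) (hf : O.Fund K₁ z) {w : Ch k (d + 1) X}
    (hw : wall A z - w ∈ RN k W F (d + 1)) {f : Co k (j + 1) X} (f1 : f ∈ (On W).Z k k (j + 1))
    (f2 : f ∈ (On F).van k k (j + 1)) (h : ∀ a ∈ H, ev k f (cap (j + 1) a w) = 0) :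
    ∃ ψ ∈ Cc k L₁ k (j + 1),
      cob k ψ = hon 𝒰 k (cup (LinearMap.mul k k) (j + 1 + 1) f (cob k (cut k A))) := by
  set ω := cup (LinearMap.mul k k) (j + 1 + 1) f (cob k (cut k A)) with hω
  have o1 : ω ∈ (On A).van k k _ := cup_van_r _ _ cob_cut_l
  have o2 : ω ∈ (On Aᶜ).van k k _ := cup_van_r _ _ cob_cut_r
  have c1 : cob k ω ∈ (Sm 𝒰).van k k _ := by
    rw [hω, cupS_holds k k k k _ X (j + 1) 1 _ rfl, cob_cob]
    refine van_sm fun Y hY => Submodule.add_mem _ ?_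
      (Submodule.smul_mem _ _ (cup_van_r _ _ (Submodule.zero_mem _)))
    rcases C.w Y hY with h | h | h
    exacts [cup_van_r _ _ (van_mono h cob_cut_l), cup_van_r _ _ (van_mono h cob_cut_r),
      cup_van_l _ (van_mono (h.trans hW) f1) _]
  have c2 : cob k (hon 𝒰 k ω) = 0 := by rw [cob_hon, hon_zero C.op C.cov c1]
  have v : hon 𝒰 k ω ∈ (On K₁ᶜ).van k k _ := hon_van C.op C.cov fun Y hY =>
    (C.alt o1 o2 Y hY).elim (fun h => van_mono inter_subset_left h)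
      fun h => cup_van_l _ (van_mono ((inter_subset_inter_left _ h).trans hF) f2) _
  obtain ⟨z₁, hz₁, hf₁⟩ := fundS_holds k X (d + 1) O K₁ ((· ∩ L₁) '' 𝒰) hK
    (by rintro _ ⟨Y, hY, rfl⟩; exact (C.op Y hY).inter hL)
    (fun x hx => by
      obtain ⟨Y, hY, h⟩ := C.cov (mem_univ x)
      exact ⟨_, ⟨Y, hY, rfl⟩, h, hKL hx⟩)
  have s1 : z₁ ∈ (Sm 𝒰).ch k (d + 2) := Sb.ch_mono (Sm_le (by
    rintro _ ⟨Y, hY, rfl⟩; exact ⟨Y, hY, inter_subset_left⟩)) hz₁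
  have s2 : z₁ ∈ (On L₁).ch k (d + 2) := Sb.ch_mono (Sm_le_On (by
    rintro _ ⟨Y, hY, rfl⟩; exact inter_subset_right)) hz₁
  refine (pdS_holds k (d + 1) X O hO _ cD L₁ hL).2 (j + 1) _ ⟨K₁, hK, hKL, v⟩ c2 fun j' hj => ?_
  obtain rfl : j' = i + 1 := by omega
  have e1 : cap' (i + 1) (hon 𝒰 k ω) z₁ = cap' (i + 1) ω z₁ := by
    have := loc_zero cD (j := i + 1) (hon_sm ω) s1
    rwa [D_sub cD, sub_eq_zero] at this
  have y1 : bd k (cap' (i + 1) ω z₁) = 0 := e1 ▸ cD.mem_cyc (j := i + 1) (by omega) c2 v hf₁.rc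
  have y2 : cap' (i + 1) ω z₁ ∈ (On L').ch k (i + 1) := ch_mono hW'
    (loc_sm cD (C.alt' o1 o2 inter_subset_left) s1 (mem_ch_univ _))
  refine ⟨K₁, z₁, hK, hKL, v, s2, hf₁, ?_⟩
  rw [sub_zero]
  change cap' (i + 1) (hon 𝒰 k ω) z₁ ∈ _
  rw [e1]
  refine Det.mem_B _ _ fun b hb => ?_
  obtain ⟨a, ha, x, hx, rfl⟩ := Submodule.mem_sup.1 (wl hb)
  rw [ev_add, ev_ex hx y2 y1, add_zero, hω, cap'_cup (m := d + 1) (by omega) (by omega), ← ev_cup',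
    ev_cup]
  have h1 : wall A z₁ - w ∈ RN k W F (d + 1) := by
    simpa using Submodule.add_mem _ (RN_mono hW subset_rfl (C.wall_indep hF s1 hz hf₁ hf)) hw
  have h2 := ev_RN f1 f2 (D_RN cD' (show i + 1 + (j + 1) = d + 1 by omega) (hH ha) h1)
  rwa [map_sub, map_sub, h a ha, sub_zero] at h2

/-- the geometry of detection with bounded supports: cuts `A₁ ⊆ A₂` with thin windows `W₁`, `W₂`, small
window `U` between them, big window `W`, far part `F` -/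
structure Bt (𝒰 : Set (Set X)) (A₁ A₂ W₁ W₂ L' R' L₁ R₁ U W F K : Set X) : Prop where
  op : ∀ Y ∈ 𝒰, IsOpen Y
  cov : univ ⊆ ⋃₀ 𝒰
  c₁ : ∀ Y ∈ 𝒰, Y ⊆ A₁ ∨ Y ⊆ A₁ᶜ ∨ Y ⊆ W₁
  c₂ : ∀ Y ∈ 𝒰, Y ⊆ A₂ ∨ Y ⊆ A₂ᶜ ∨ Y ⊆ W₂
  c : ∀ Y ∈ 𝒰, Y ⊆ A₁ ∨ Y ⊆ A₂ᶜ ∨ Y ⊆ W
  AA : A₁ ⊆ A₂
  w₁ : W₁ ⊆ W ∩ L'
  w₂ : W₂ ⊆ W ∩ R'
  oL : IsOpen L₁
  oR : IsOpen R₁
  hK : IsCompact K
  KF : W \ K ⊆ F
  FW : F ⊆ W
  k₁ : ∃ K₁, IsCompact K₁ ∧ K₁ ⊆ K ∩ L₁ ∧ W₁ \ K₁ ⊆ F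
  k₂ : ∃ K₂, IsCompact K₂ ∧ K₂ ⊆ K ∩ R₁ ∧ W₂ \ K₂ ⊆ F
  u : U ⊆ A₂ ∩ A₁ᶜ ∩ (L₁ᶜ ∩ R₁ᶜ) ∩ W

omit [T2Space X] in
theorem Bt.cut (B : Bt 𝒰 A₁ A₂ W₁ W₂ L' R' L₁ R₁ U W F K) (h : A₁ ⊆ A) (h' : A ⊆ A₂) :
    Cut 𝒰 A univ univ A₁ A₂ᶜ W :=
  ⟨B.op, B.cov, fun _ _ => Or.inr (subset_univ _), fun _ _ => Or.inr (subset_univ _), h,
    compl_subset_compl.2 h', B.c⟩

variable {HL HR : Submodule k (Co k (i + 1) X)} (hO : O.ND) (hX : Acy k (univ : Set X) univ)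
  (B : Bt 𝒰 A₁ A₂ W₁ W₂ L' R' L₁ R₁ U W F K) (hij : i + 1 + j = d)
  (zl : HL ≤ (On W).Z k k (i + 1)) (zr : HR ≤ (On W).Z k k (i + 1))
  (wl : (On L₁).Z k k (i + 1) ≤ HL ⊔ (On L').Ex k k (i + 1))
  (wr : (On R₁).Z k k (i + 1) ≤ HR ⊔ (On R').Ex k k (i + 1))
  (hA : A₁ ⊆ A) (hA' : A ⊆ A₂) {z : Ch k (d + 2) X} (hz : z ∈ (Sm 𝒰).ch k (d + 2)) (hf : O.Fund K z)
  {w : Ch k (d + 1) X} (hw : wall A z - w ∈ RN k W F (d + 1))
include hO hX B hij zl zr wl wr hA hA' hz hf hw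

/-- **detection with bounded supports** -/
theorem det_b {f : Co k (j + 1) X} (f1 : f ∈ (On W).Z k k (j + 1)) (f2 : f ∈ (On F).van k k (j + 1))
    (h : (∀ a, a ∈ HL ∨ a ∈ HR → ev k f (cap (j + 1) a w) = 0) ∨
      ∀ a, a ∈ HL ∨ a ∈ HR → ev k f (cap' (j + 1) a w) = 0) :
    ∃ θ ∈ Cc k univ k j, f - cob k θ ∈ (On U).van k k (j + 1) := by
  have C := B.cut hA hA'
  have h : ∀ a, a ∈ HL ∨ a ∈ HR → ev k f (cap (j + 1) a w) = 0 := by
    refine h.elim id fun h a ha => ?_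
    have hm := Wl.mem C (⟨fun _ _ => Or.inl (by simp), subset_univ _, subset_univ _, B.FW, K, z, B.hK,
      B.KF, hz, hf, hw⟩ : Wl O 𝒰 A univ univ W F ∅ w)
    have := ev_RN f1 f2 (cap_sub_cap' (show i + 1 + (j + 1) = d + 1 by omega)
      (ha.elim (@zl a) (@zr a)) hm.1 hm.2)
    rwa [map_sub, map_smul, h a ha, smul_zero, sub_zero] at this
  have hw' : ∀ {A'}, A₁ ⊆ A' → A' ⊆ A₂ → wall A' z - w ∈ RN k W F (d + 1) := fun h1 h2 => by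
    simpa using Submodule.add_mem _
      ((B.cut h1 h2).wall_sub hA (compl_subset_compl.2 hA') hz hf.rc B.KF) hw
  obtain ⟨K₁, k1, k2, k3⟩ := B.k₁
  obtain ⟨K₂, l1, l2, l3⟩ := B.k₂
  obtain ⟨ψ₁, ⟨Q₁, p1, p2, p3⟩, p4⟩ := side hO ⟨B.op, B.cov, fun _ _ => Or.inr (subset_univ _),
      fun _ _ => Or.inr (subset_univ _), subset_rfl, subset_rfl, B.c₁⟩ hij B.oL k1
    (k2.trans inter_subset_right) k3 (B.w₁.trans inter_subset_left) (B.w₁.trans inter_subset_right) zl wl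
    hz (hf.mono k1 B.hK (k2.trans inter_subset_left)) (hw' subset_rfl B.AA) f1 f2
    fun a ha => h a (Or.inl ha)
  obtain ⟨ψ₂, ⟨Q₂, q1, q2, q3⟩, q4⟩ := side hO ⟨B.op, B.cov, fun _ _ => Or.inr (subset_univ _),
      fun _ _ => Or.inr (subset_univ _), subset_rfl, subset_rfl, B.c₂⟩ hij B.oR l1
    (l2.trans inter_subset_right) l3 (B.w₂.trans inter_subset_left) (B.w₂.trans inter_subset_right) zr wr
    hz (hf.mono l1 B.hK (l2.trans inter_subset_left)) (hw' B.AA subset_rfl) f1 f2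
    fun a ha => h a (Or.inr ha)
  set χ := cut k A₂ - cut k A₁ with hχ
  have x1 : χ ∈ (On A₁).van k k 0 := fun σ h => by simp [hχ, cut_one h, cut_one (h.trans B.AA)]
  have x2 : χ ∈ (On A₂ᶜ).van k k 0 := fun σ h => by
    simp [hχ, cut_zero h, cut_zero (h.trans (compl_subset_compl.2 B.AA))]
  set g := cup (LinearMap.mul k k) (j + 1) f χ with hg
  have g1 : cob k g - (-1 : k) ^ (j + 1) •
      (cup (LinearMap.mul k k) (j + 1 + 1) f (cob k (cut k A₂)) -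
        cup (LinearMap.mul k k) (j + 1 + 1) f (cob k (cut k A₁))) ∈ (Sm 𝒰).van k k _ := by
    have e : cup (LinearMap.mul k k) (j + 1 + 1) f (cob k (cut k A₂)) -
        cup (LinearMap.mul k k) (j + 1 + 1) f (cob k (cut k A₁)) =
        cup (LinearMap.mul k k) (j + 1 + 1) f (cob k χ) := by
      funext σ; simp [hχ, cup, mul_sub]
    rw [e, hg, cupS_holds k k k k _ X (j + 1) 0 _ rfl, add_sub_cancel_right]
    exact van_sm fun Y hY => by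
      rcases B.c Y hY with h | h | h
      exacts [cup_van_r _ _ (van_mono h x1), cup_van_r _ _ (van_mono h x2),
        cup_van_l _ (van_mono h f1) _]
  have g2 := hon_zero B.op B.cov g1
  rw [hon_sub, hon_smul, hon_sub, ← p4, ← q4, ← cob_hon, ← map_sub, ← map_smul, ← map_sub] at g2
  have g3 : hon 𝒰 k g ∈ (On Kᶜ).van k k _ := hon_van B.op B.cov fun Y hY =>
    (C.alt (cup_van_r _ _ x1) (cup_van_r _ _ x2) Y hY).elim (fun h => van_mono inter_subset_left h)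
      fun h => cup_van_l _ (van_mono ((inter_subset_inter_left _ h).trans B.KF) f2) _
  obtain ⟨θ, t1, t2⟩ := hc_zero hO hX (show j < d + 1 by omega)
    (Submodule.sub_mem _ ⟨K, B.hK, subset_univ _, g3⟩ (Submodule.smul_mem _ _
      (Submodule.sub_mem _ ⟨Q₂, q1, subset_univ _, q3⟩ ⟨Q₁, p1, subset_univ _, p3⟩))) g2
  have u1 : U ⊆ A₂ := fun x hx => (B.u hx).1.1.1
  have u2 : U ⊆ A₁ᶜ := fun x hx => (B.u hx).1.1.2
  have u3 : U ⊆ W := fun x hx => (B.u hx).2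
  obtain ⟨e, e1, e2⟩ := sub_hon (𝒰 := 𝒰) (Sb.Z_mono (On_le u3) f1)
  refine ⟨θ + e, Submodule.add_mem _ t1 ⟨K, B.hK, subset_univ _,
    e2 _ (van_mono ((inter_subset_inter_left _ u3).trans B.KF) f2)⟩, ?_⟩
  have a1 : hon 𝒰 k (f - g) ∈ (On U).van k k _ := hon_van B.op B.cov fun Y _ σ hσ => by
    have := (range_bk 0 σ).trans (hσ.trans inter_subset_right)
    simp [hg, hχ, cup, fr_self, cut_one (this.trans u1), cut_zero (this.trans u2)]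
  have a2 : ψ₂ - ψ₁ ∈ (On U).van k k _ := Submodule.sub_mem _
    (van_mono (fun x hx h => (B.u hx).1.2.2 (q2 h)) q3) (van_mono (fun x hx h => (B.u hx).1.2.1 (p2 h)) p3)
  have := Submodule.add_mem _ (Submodule.add_mem _ e1 a1)
    (Submodule.smul_mem _ ((-1 : k) ^ (j + 1)) a2)
  rwa [hon_sub, show f - hon 𝒰 k f - cob k e + (hon 𝒰 k f - hon 𝒰 k g) +
    (-1 : k) ^ (j + 1) • (ψ₂ - ψ₁) = f - cob k (θ + e) by rw [map_add, t2]; abel] at this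

/-- finite dimensional coefficients, modulo a submodule -/
theorem det_b_mem {M : Type} [AddCommGroup M] [Module k M] (N : Submodule k M)
    [Module.Finite k (M ⧸ N)] {f : Co M (j + 1) X} (f1 : ∀ σ : Sx (j + 2) X, range σ ⊆ W → cob k f σ ∈ N)
    (f2 : ∀ σ : Sx (j + 1) X, range σ ⊆ F → f σ ∈ N)
    (h : (∀ a, a ∈ HL ∨ a ∈ HR → ev k f (cap (j + 1) a w) ∈ N) ∨
      ∀ a, a ∈ HL ∨ a ∈ HR → ev k f (cap' (j + 1) a w) ∈ N) :
    ∃ θ ∈ Cc k univ M j, ∀ σ : Sx (j + 1) X, range σ ⊆ U → f σ - cob k θ σ ∈ N := by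
  set b := Module.finBasis k (M ⧸ N)
  have key : ∀ t, ∃ θ ∈ Cc k univ k j,
      (fun σ => (b.coord t).comp N.mkQ (f σ)) - cob k θ ∈ (On U).van k k (j + 1) := fun t => by
    have z0 : ∀ x ∈ N, (b.coord t).comp N.mkQ x = 0 := fun x hx => by
      simp [(Submodule.Quotient.mk_eq_zero N).2 hx]
    refine det_b hO hX B hij zl zr wl wr hA hA' hz hf hw (fun σ hσ => ?_) (fun σ hσ => z0 _ (f2 σ hσ))
      (h.imp (fun h a ha => ?_) fun h a ha => ?_)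
    · rw [cob_map]; exact z0 _ (f1 σ hσ)
    · rw [← map_ev]; exact z0 _ (h a ha)
    · rw [← map_ev]; exact z0 _ (h a ha)
  choose θ h1 h2 using key
  choose v hv using fun t => N.mkQ_surjective (b t)
  refine ⟨∑ t, fun σ => (LinearMap.toSpanSingleton k M (v t)) (θ t σ),
    Submodule.sum_mem _ fun t _ => ?_, fun σ hσ => ?_⟩
  · obtain ⟨Q, a, a', a''⟩ := h1 t
    exact ⟨Q, a, a', fun σ hσ => by simp [a'' σ hσ]⟩
  · rw [← Submodule.Quotient.mk_eq_zero, ← Submodule.mkQ_apply, map_sum, Finset.sum_apply,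
      map_sub, map_sum, sub_eq_zero, ← b.sum_repr (N.mkQ (f σ))]
    refine Finset.sum_congr rfl fun t _ => ?_
    have := h2 t σ hσ
    rw [Pi.sub_apply, sub_eq_zero] at this
    rw [cob_map, ← this]
    simp [← hv]

end Crest.Agent.N255.Wn

end
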