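import Crest.Agent.N255.Tp.All
import Crest.Agent.N255.Tp.Rel
import Crest.Agent.N255.Tp.Comm

/-!
# Row 255 (helper46): window detection relative to the end

In an acyclic manifold which is cut by a set `A`, every chain of a window with boundary far away is, modulo
boundaries and far chains, the cap product of the wall with the sum of a left and of a right cocycle.
-/

set_option autoImplicit false
open Set Filter Topology

noncomputable section

namespace Crest.Agent.N255.Wn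

open Crest.Agent.N255.Tp

variable {X : Type} [TopologicalSpace X] {n i j d : ℕ} {𝒰 : Set (Set X)}
  {A A' L R L' R' W F T U V K : Set X}

section ring

variable {k : Type} [CommRing k]
  {D : ∀ {n : ℕ} (j : ℕ) {i : ℕ}, Co k i X → Ch k n X →ₗ[k] Ch k j X}

theorem loc (hD : CapLike k X D) {τ : Co k i X} {P : Sb X}
    (h : ∀ σ ∈ P.S n, τ ∈ (On (range σ)).van k k i ∨ range σ ⊆ F) {z : Ch k n X}
    (hz : z ∈ P.ch k n) : D j τ z ∈ (On F).ch k j :=
  Sb.map_mem (D j τ) _ (fun σ hσ => (h σ hσ).elim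
    (fun h => by rw [hD.zero _ τ _ h (Sb.sg_mem (mem_On.2 subset_rfl))]; exact Submodule.zero_mem _)
    fun h => hD.mem _ τ _ (Sb.sg_mem h)) hz

theorem loc_sm (hD : CapLike k X D) {τ : Co k i X}
    (h : ∀ Y ∈ 𝒰, τ ∈ (On Y).van k k i ∨ Y ∩ T ⊆ F) {z : Ch k n X}
    (hz : z ∈ (Sm 𝒰).ch k n) (hT : z ∈ (On T).ch k n) : D j τ z ∈ (On F).ch k j :=
  loc hD (P := (Sm 𝒰).inf (On T))
    (fun _ ⟨⟨Y, hY, h1⟩, h2⟩ => (h Y hY).imp (fun h => van_mono h1 h)
      fun h => (subset_inter h1 h2).trans h) (Sml.mem_inf hz hT)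

theorem loc_zero (hD : CapLike k X D) {τ : Co k i X} (h : τ ∈ (Sm 𝒰).van k k i) {z : Ch k n X}
    (hz : z ∈ (Sm 𝒰).ch k n) : D j τ z = 0 :=
  eq_zero_of_ch_empty (loc_sm hD (T := univ)
    (fun _ hY => Or.inl (Sb.van_mono (On_le_Sm hY) h)) hz (mem_ch_univ z))

theorem D_sub (hD : CapLike k X D) (φ ψ : Co k i X) (z : Ch k n X) :
    D j (φ - ψ) z = D j φ z - D j ψ z := by
  rw [sub_eq_add_neg, hD.add, hD.neg, sub_eq_add_neg]

/-- a cap with a coboundary -/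
theorem D_cob (hD : CapLike k X D) (h : i + j = n) {η : Co k i X} {z : Ch k (n + 1) X}
    (h1 : D (j + 1) η z ∈ (On W).ch k (j + 1)) (h2 : D j η (bd k z) ∈ (On F).ch k j) :
    D j (cob k η) z ∈ RN k W F j := by
  obtain ⟨s, t, e⟩ := hD.bd h
  have : D j (cob k η) z = ((t⁻¹ : kˣ) : k) • (bd k (D (j + 1) η z) - (s : k) • D j η (bd k z)) := by
    rw [e, add_sub_cancel_left, smul_smul, Units.inv_mul, one_smul]
  rw [this]
  exact Submodule.smul_mem _ _ (Submodule.sub_mem _ (B_le_RN (Sb.bd_mem_B h1))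
    (ch_le_RN (Submodule.smul_mem _ _ h2)))

/-- a cap of a boundary -/
theorem D_bd (hD : CapLike k X D) (h : i + j = n) {η : Co k i X} {z : Ch k (n + 1) X}
    (h1 : D (j + 1) η z ∈ (On W).ch k (j + 1)) (h2 : D j (cob k η) z = 0) :
    D j η (bd k z) ∈ (On W).B k j := by
  obtain ⟨s, t, e⟩ := hD.bd h
  have : D j η (bd k z) = ((s⁻¹ : kˣ) : k) • bd k (D (j + 1) η z) := by
    rw [e, h2, smul_zero, add_zero, smul_smul, Units.inv_mul, one_smul]
  rw [this]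
  exact Submodule.smul_mem _ _ (Sb.bd_mem_B h1)

/-- caps with a cocycle of `W` respect the null chains of the pair -/
theorem D_RN (hD : CapLike k X D) (h : i + j = n) {η : Co k i X} (hη : η ∈ (On W).Z k k i)
    {z : Ch k n X} (hz : z ∈ RN k W F n) : D j η z ∈ RN k W F j := by
  obtain ⟨_, ⟨b, hb, rfl⟩, y, hy, rfl⟩ := Submodule.mem_sup.1 hz
  rw [map_add]
  exact Submodule.add_mem _ (B_le_RN (D_bd hD h (hD.mem _ _ _ hb) (hD.zero _ _ _ hη hb)))
    (ch_le_RN (hD.mem _ _ _ hy))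

theorem RN_mono (h : U ⊆ W) (h' : V ⊆ F) : RN k U V n ≤ RN k W F n :=
  sup_le_sup (B_mono h) (ch_mono h')

/-- independence of the small fundamental chain -/
theorem D_indep (hD : CapLike k X D) (ho : ∀ Y ∈ 𝒰, IsOpen Y) (hc : univ ⊆ ⋃₀ 𝒰)
    (h : i + j = d + 1) {O : Ori k d X} {ω : Co k i X} (hω : ω ∈ (Sm 𝒰).Z k k i)
    (hW : ∀ Y ∈ 𝒰, ω ∈ (On Y).van k k i ∨ Y ⊆ W) (hF : W \ K ⊆ F) {z z' : Ch k (d + 1) X}
    (hz : z ∈ (Sm 𝒰).ch k (d + 1)) (hz' : z' ∈ (Sm 𝒰).ch k (d + 1)) (hf : O.Fund K z)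
    (hf' : O.Fund K z') : D j ω z - D j ω z' ∈ RN k W F j := by
  obtain ⟨w, hw⟩ := mem_Nul.1 (hf.sub_mem hf')
  have sm : ∀ {m} (c : Ch k m X), Sml.rho k 𝒰 m c ∈ (Sm 𝒰).ch k m := fun c =>
    Sb.ch_mono Sb.inf_le_right (Sml.rho_inf k ho hc (mem_ch_univ c))
  have e : z - z' = bd k (Sml.rho k 𝒰 _ w) + Sml.rho k 𝒰 _ (z - z' - bd k w) := by
    rw [Sml.bd_rho, ← map_add, add_sub_cancel, Sml.rho_of_sm k 𝒰 (Submodule.sub_mem _ hz hz')]
  rw [← map_sub, e, map_add]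
  refine Submodule.add_mem _ (B_le_RN (D_bd hD h ?_ (loc_zero hD hω (sm w)))) (ch_le_RN ?_)
  · exact loc_sm hD (T := univ) (fun Y hY => (hW Y hY).imp id fun h => inter_subset_left.trans h)
      (sm w) (mem_ch_univ _)
  · exact loc_sm hD (fun Y hY => (hW Y hY).imp id fun h => (inter_subset_inter_left _ h).trans hF)
      (sm _) (Sml.rho_mem k 𝒰 _ hw)

variable {M M' M'' : Type} [AddCommGroup M] [Module k M] [AddCommGroup M'] [Module k M']
  [AddCommGroup M''] [Module k M'']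

theorem cup_van_l (μ : M →ₗ[k] M' →ₗ[k] M'') {φ : Co M i X} (h : φ ∈ (On U).van k M i)
    (ψ : Co M' j X) : cup μ n φ ψ ∈ (On U).van k M'' n := fun σ hσ => by
  rw [cup, h _ ((range_fr _ σ).trans hσ), map_zero, LinearMap.zero_apply]

theorem cup_van_r (μ : M →ₗ[k] M' →ₗ[k] M'') (φ : Co M i X) {ψ : Co M' j X}
    (h : ψ ∈ (On U).van k M' j) : cup μ n φ ψ ∈ (On U).van k M'' n := fun σ hσ => by
  rw [cup, h _ ((range_bk _ σ).trans hσ), map_zero]

theorem van_sm {φ : Co M n X} (h : ∀ Y ∈ 𝒰, φ ∈ (On Y).van k M n) : φ ∈ (Sm 𝒰).van k M n :=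
  fun σ ⟨Y, hY, hσ⟩ => h Y hY σ hσ

theorem cap'_cup {a b m : ℕ} (h : a + j = m) (h' : b + m = n) (φ : Co k a X) (ψ : Co k b X)
    (z : Ch k n X) :
    cap' j (cup (LinearMap.mul k k) (a + b) φ ψ) z = cap' j φ (cap' m ψ z) := by
  refine ch_ext' (S := cap' j (cup (LinearMap.mul k k) (a + b) φ ψ))
    (T := (cap' j φ).comp (cap' m ψ)) (fun σ => ?_) z
  have e1 : fr a (bk (a + b) σ) = bk a (fr m σ) := by
    rw [Cp.fr_eq, Cp.bk_eq, Cp.bk_eq, Cp.fr_eq, Cp.sb_sb, Cp.sb_sb]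
    exact Cp.sb_congr σ fun t ht => by omega
  have e2 : bk b (bk (a + b) σ) = bk b σ := by
    rw [Cp.bk_eq, Cp.bk_eq, Cp.bk_eq, Cp.sb_sb]
    exact Cp.sb_congr σ fun t ht => by omega
  have e3 : fr j (fr m σ) = fr j σ := by
    rw [Cp.fr_eq, Cp.fr_eq, Cp.fr_eq, Cp.sb_sb]
    exact Cp.sb_congr σ fun t ht => by omega
  simp only [cap', LinearMap.comp_apply, ev_sg, map_smul, cup, LinearMap.mul_apply', e1, e2, e3,
    smul_smul, mul_comm]

variable (k) in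
open Classical in
/-- the indicator of `A` as a cochain of degree zero -/
def cut (A : Set X) : Co k 0 X := fun σ => if range σ ⊆ A then 1 else 0

theorem cut_one {σ : Sx 0 X} (h : range σ ⊆ A) : cut k A σ = 1 := if_pos h

theorem cut_zero {σ : Sx 0 X} (h : range σ ⊆ Aᶜ) : cut k A σ = 0 :=
  if_neg fun h' => by
    obtain ⟨x, hx⟩ := range_nonempty σ
    exact h hx (h' hx)

theorem cut_van : cut k A ∈ (On Aᶜ).van k k 0 := fun _ h => cut_zero h

theorem one_sub_cut_van : (fun _ => 1) - cut k A ∈ (On A).van k k 0 := fun σ h => by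
  simp [cut_one h]

theorem cob_one : cob k (fun _ : Sx 0 X => (1 : k)) = 0 := by
  funext σ; simp [cob_apply, Fin.sum_univ_two]

theorem cob_cut_r : cob k (cut k A) ∈ (On Aᶜ).van k k 1 := Sb.cob_mem cut_van

theorem cob_cut_l : cob k (cut k A) ∈ (On A).van k k 1 := by
  have := Submodule.neg_mem _ (Sb.cob_mem (one_sub_cut_van (k := k) (A := A)))
  simpa [cob_one] using this

/-- the wall of the cut `A` in the chain `z` -/
def wall (A : Set X) (z : Ch k (n + 1) X) : Ch k n X := cap' n (cob k (cut k A)) z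

/-- a cut `A`, a cover `𝒰`, the big sides `L`, `R`, the small sides `L'`, `R'` and the window `W` -/
structure Cut (𝒰 : Set (Set X)) (A L R L' R' W : Set X) : Prop where
  op : ∀ Y ∈ 𝒰, IsOpen Y
  cov : univ ⊆ ⋃₀ 𝒰
  l : ∀ Y ∈ 𝒰, Y ⊆ Aᶜ ∨ Y ⊆ L
  r : ∀ Y ∈ 𝒰, Y ⊆ A ∨ Y ⊆ R
  lA : L' ⊆ A
  rA : R' ⊆ Aᶜ
  w : ∀ Y ∈ 𝒰, Y ⊆ L' ∨ Y ⊆ R' ∨ Y ⊆ W

theorem cD : CapLike k X fun j _ φ => cap' j φ := (capS_holds k X).2

theorem cD' : CapLike k X fun j _ φ => cap j φ := (capS_holds k X).1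

namespace Cut

variable (C : Cut 𝒰 A L R L' R' W)
include C

theorem alt {η : Co M i X} (hl : η ∈ (On L').van k M i) (hr : η ∈ (On R').van k M i) :
    ∀ Y ∈ 𝒰, η ∈ (On Y).van k M i ∨ Y ⊆ W := fun Y hY => by
  rcases C.w Y hY with h | h | h
  exacts [Or.inl (van_mono h hl), Or.inl (van_mono h hr), Or.inr h]

theorem alt' {η : Co M i X} (hl : η ∈ (On L').van k M i) (hr : η ∈ (On R').van k M i)
    (h : W ∩ T ⊆ F) : ∀ Y ∈ 𝒰, η ∈ (On Y).van k M i ∨ Y ∩ T ⊆ F := fun Y hY =>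
  (C.alt hl hr Y hY).imp id fun h' => (inter_subset_inter_left _ h').trans h

theorem wall_mem {z : Ch k (n + 1) X} (hz : z ∈ (Sm 𝒰).ch k (n + 1)) :
    wall A z ∈ (On W).ch k n :=
  loc_sm cD (C.alt' (van_mono C.lA cob_cut_l) (van_mono C.rA cob_cut_r) inter_subset_left) hz
    (mem_ch_univ z)

theorem bd_wall {z : Ch k (n + 2) X} (hz : z ∈ (Sm 𝒰).ch k (n + 2))
    (hb : bd k z ∈ (On Kᶜ).ch k (n + 1)) (hF : W \ K ⊆ F) : bd k (wall A z) ∈ (On F).ch k n := by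
  rw [wall, bd_cap' (by omega), cob_cob, (cD (k := k) (X := X)).zero', smul_zero, sub_zero]
  exact loc_sm cD (C.alt' (van_mono C.lA cob_cut_l) (van_mono C.rA cob_cut_r) hF) (Sb.bd_mem hz) hb

/-- two cuts with the same small sides have homologous walls -/
theorem wall_sub (hl : L' ⊆ A') (hr : R' ⊆ A'ᶜ) {z : Ch k (n + 1) X} (hz : z ∈ (Sm 𝒰).ch k (n + 1))
    (hb : bd k z ∈ (On Kᶜ).ch k n) (hF : W \ K ⊆ F) : wall A z - wall A' z ∈ RN k W F n := by
  have h1 : cut k A - cut k A' ∈ (On L').van k k 0 := fun σ h => by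
    simp [cut_one (h.trans hl), cut_one (h.trans C.lA)]
  have h2 : cut k A - cut k A' ∈ (On R').van k k 0 := fun σ h => by
    simp [cut_zero (h.trans hr), cut_zero (h.trans C.rA)]
  have := D_cob cD (zero_add n) (W := W) (F := F) (η := cut k A - cut k A') (z := z)
    (loc_sm cD (C.alt' h1 h2 inter_subset_left) hz (mem_ch_univ z))
    (loc_sm cD (C.alt' h1 h2 hF) (Sb.bd_mem hz) hb)
  rwa [map_sub, D_sub cD] at this

/-- the wall does not depend on the small fundamental chain -/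
theorem wall_indep {O : Ori k d X} (hF : W \ K ⊆ F) {z z' : Ch k (d + 1) X}
    (hz : z ∈ (Sm 𝒰).ch k (d + 1)) (hz' : z' ∈ (Sm 𝒰).ch k (d + 1)) (hf : O.Fund K z)
    (hf' : O.Fund K z') : wall A z - wall A z' ∈ RN k W F d :=
  D_indep cD C.op C.cov (by omega) (by rw [Sb.mem_Z, cob_cob]; exact Submodule.zero_mem _)
    (C.alt (van_mono C.lA cob_cut_l) (van_mono C.rA cob_cut_r)) hF hz hz' hf hf'

end Cut

/-- the cochain which is `a` on `A` and `b` off `A` -/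
def glue (A : Set X) (a b : Co k i X) : Co k i X :=
  cup (LinearMap.mul k k) i a (cut k A) + cup (LinearMap.mul k k) i b ((fun _ => 1) - cut k A)

theorem glue_l (a b : Co k i X) : glue A a b - a ∈ (On A).van k k i := fun σ h => by
  simp [glue, cup, fr_self, cut_one ((range_bk 0 σ).trans h)]

theorem glue_r (a b : Co k i X) : glue A a b - b ∈ (On Aᶜ).van k k i := fun σ h => by
  simp [glue, cup, fr_self, cut_zero ((range_bk 0 σ).trans h)]

theorem Cut.cob_glue (C : Cut 𝒰 A L R L' R' W) {a b : Co k i X} (ha : a ∈ (On L).Z k k i)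
    (hb : b ∈ (On R).Z k k i) : cob k (glue A a b) -
      cup (LinearMap.mul k k) (i + 1) ((-1 : k) ^ i • (a - b)) (cob k (cut k A)) ∈
        (Sm 𝒰).van k k (i + 1) := by
  have e : cob k (glue A a b) -
      cup (LinearMap.mul k k) (i + 1) ((-1 : k) ^ i • (a - b)) (cob k (cut k A)) =
      cup (LinearMap.mul k k) (i + 1) (cob k a) (cut k A) +
        cup (LinearMap.mul k k) (i + 1) (cob k b) ((fun _ => 1) - cut k A) := by
    rw [glue, map_add, cupS_holds k k k k _ X i 0 i rfl, cupS_holds k k k k _ X i 0 i rfl, map_sub,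
      cob_one]
    funext σ
    simp only [cup, Pi.add_apply, Pi.sub_apply, Pi.smul_apply, LinearMap.mul_apply', smul_eq_mul,
      Pi.zero_apply]
    ring
  rw [e]
  refine van_sm fun Y hY => Submodule.add_mem _ ?_ ?_
  · exact (C.l Y hY).elim (fun h => cup_van_r _ _ (van_mono h cut_van))
      fun h => cup_van_l _ (van_mono h ha) _
  · exact (C.r Y hY).elim (fun h => cup_van_r _ _ (van_mono h one_sub_cut_van))
      fun h => cup_van_l _ (van_mono h hb) _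

theorem exists_two (hd : Disjoint L' R') (a b : Co M i X) :
    ∃ e : Co M i X, e - a ∈ (On L').van k M i ∧ e - b ∈ (On R').van k M i := by
  refine ⟨(On L').res a + (On R').res b, fun σ h => ?_, fun σ h => ?_⟩
  · have : σ ∉ (On R').S i := fun h' => by
      obtain ⟨x, hx⟩ := range_nonempty σ
      exact disjoint_left.1 hd (h hx) (h' hx)
    simp [Sb.res_of_mem a h, Sb.res_of_notMem b this]
  · have : σ ∉ (On L').S i := fun h' => by
      obtain ⟨x, hx⟩ := range_nonempty σ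
      exact disjoint_left.1 hd (h' hx) (h hx)
    simp [Sb.res_of_mem b h, Sb.res_of_notMem a this]

end ring

variable {k : Type} [Field k]

theorem mem_RN {c : Ch k n X}
    (h : ∀ f ∈ (On W).Z k k n, f ∈ (On F).van k k n → ev k f c = 0) : c ∈ RN k W F n := by
  by_contra hc
  obtain ⟨f, h1, h2⟩ := (uctS_holds k X n).1 _ c hc
  exact h2 (h f (Det.mem_Z fun x hx => h1 x (B_le_RN hx))
    fun σ hσ => (ev_sg f σ).symm.trans (h1 _ (ch_le_RN (Sb.sg_mem hσ))))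

theorem ev_RN {M : Type} [AddCommGroup M] [Module k M] {f : Co M n X} (h : f ∈ (On W).Z k M n)
    (h' : f ∈ (On F).van k M n) {c : Ch k n X} (hc : c ∈ RN k W F n) : ev k f c = 0 := by
  obtain ⟨b, hb, y, hy, rfl⟩ := Submodule.mem_sup.1 hc
  rw [map_add, Sb.ev_B h hb, Sb.ev_eq_zero h' hy, add_zero]

/-- the two cap products agree up to sign on relative cycles -/
theorem cap_sub_cap' (h : i + j = n + 1) {η : Co k i X} (hη : η ∈ (On W).Z k k i)
    {w : Ch k (n + 1) X} (hw : w ∈ (On W).ch k (n + 1)) (hb : bd k w ∈ (On F).ch k n) :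
    cap j η w - (-1 : k) ^ (i * j) • cap' j η w ∈ RN k W F j :=
  mem_RN fun f hf hf' => by
    rw [map_sub, map_smul, ← ev_cup, ← ev_cup', ev_cup_comm _ h hη hf (Or.inr hf') hw hb, mul_flip,
      sub_self]

variable [T2Space X]

section
variable [ChartedSpace (EE (d + 1)) X] {O : Ori k d X}
  {D : ∀ {n : ℕ} (j : ℕ) {i : ℕ}, Co k i X → Ch k n X →ₗ[k] Ch k j X}

/-- linking numbers with a cycle which can be pushed to infinity inside `V` vanish -/
theorem ex_off (hO : O.ND) (hX : Acy k (univ : Set X) univ) (hD : CapLike k X D) (hV : IsOpen V)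
    (hij : i + 1 + 1 + j = d + 1) {φ : Co k (i + 1) X} {c : Ch k j X}
    (hφ : O.Du D V (cob k φ) c) (h0 : c ∈ cyc k X j)
    (hc : ∀ K, IsCompact K → c ∈ (On V).B k j ⊔ (On (V \ K)).ch k j) :
    φ ∈ (On Vᶜ).Ex k k (i + 1) := by
  refine Det.ex_of_cyc _ φ fun x hx hx0 => ?_
  obtain ⟨w, -, rfl⟩ := hX (i + 1) ⟨mem_ch_univ x, hx0⟩
  obtain ⟨b, hb, c', hc', rfl⟩ := Submodule.mem_sup.1 (hc _ (isCompact_car w))
  obtain ⟨θ, ⟨K, -, hK, t1⟩, t2, t3⟩ :=
    (pdS_holds k d X O hO D hD _ (hV.sdiff (isCompact_car w).isClosed)).1 (i + 1 + 1) j hij c' hc'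
      (by simpa using Submodule.sub_mem _ h0 (Sb.B_le_cyc hb))
  have d1 := (hφ.add smChS_holds fundS_holds hD hij hV ((t3.mono sdiff_subset).neg hD) (cob_cob φ)
    (by rw [map_neg, t2, neg_zero])).congr (c' := 0) (by simpa using hb)
  obtain ⟨ρ, ⟨K', -, hK', r1⟩, r2⟩ := (pdS_holds k d X O hO D hD V hV).2 (i + 1) _ d1.mem_Cc
    (by rw [map_add, map_neg, t2, cob_cob, neg_zero, add_zero]) fun j' hj => by
      obtain rfl : j' = j := by omega
      exact d1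
  have e1 : ev k ρ (bd k w) = 0 := Sb.ev_eq_zero r1 (ch_mono (compl_subset_compl.2 hK') hx)
  have e2 : ev k θ w = 0 :=
    Sb.ev_eq_zero t1 (mem_ch_iff_car.2 fun x hx hx' => (hK hx').2 hx)
  rw [ev_bd, r2, ev_add, ev_neg, e2, neg_zero, add_zero] at e1
  rw [ev_bd, e1]

end

variable [ChartedSpace (EE (d + 1 + 1)) X] {O : Ori k (d + 1) X}

/-- the hypotheses of window detection: `(U, V)` small window and its far part, `V₁ ⊇ V` the region in
which far cycles are pushed to infinity, `(W, F)` big window and its far part -/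
structure Dt (k : Type) [Field k] (i j : ℕ) (U V V₁ L₁ R₁ L R L' R' : Set X)
    (HL HR : Submodule k (Co k (i + 1) X)) : Prop where
  oU : IsOpen U
  oV : IsOpen V
  oV₁ : IsOpen V₁
  VU : V ⊆ U
  VV : V ⊆ V₁
  l₁ : L₁ ⊆ Uᶜ ∩ V₁ᶜ
  r₁ : R₁ ⊆ Uᶜ ∩ V₁ᶜ
  zl : HL ≤ (On L).Z k k (i + 1)
  zr : HR ≤ (On R).Z k k (i + 1)
  wl : (On L₁).Z k k (i + 1) ≤ HL ⊔ (On L').Ex k k (i + 1)
  wr : (On R₁).Z k k (i + 1) ≤ HR ⊔ (On R').Ex k k (i + 1)
  ll : L' ⊆ L₁
  rr : R' ⊆ R₁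
  ea : ∀ K, IsCompact K → (On V).ch k j ⊓ cyc k X j ≤ (On V₁).B k j ⊔ (On (V₁ \ K)).ch k j

variable {V₁ L₁ R₁ : Set X} {HL HR : Submodule k (Co k (i + 1) X)}

/-- **window detection relative to the end**, for the wall of the cut -/
theorem det_wall (hO : O.ND) (hX : Acy k (univ : Set X) univ) (C : Cut 𝒰 A L R L' R' W)
    (H : Dt k i j U V V₁ L₁ R₁ L R L' R' HL HR) (hij : i + 1 + j = d) (hUW : U ⊆ W) (hVF : V ⊆ F)
    (hF : ∀ Y ∈ 𝒰, Y ⊆ V₁ᶜ ∨ Y ⊆ F) (hK : IsCompact K) (hKF : W \ K ⊆ F)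
    {z : Ch k (d + 2) X} (hz : z ∈ (Sm 𝒰).ch k (d + 2)) (hf : O.Fund K z) {c : Ch k (j + 1) X}
    (hc : c ∈ (On U).ch k (j + 1)) (hb : bd k c ∈ (On V).ch k j) :
    ∃ a ∈ HL, ∃ b ∈ HR, c - cap' (j + 1) (a + b) (wall A z) ∈ RN k W F (j + 1) := by
  have hD := cD (k := k) (X := X)
  obtain ⟨φ, hφ⟩ := rel_surj pdS_holds hO hD H.oU H.oV H.VU (i := i + 1 + 1) (j := j + 1) (by omega)
    hc hb
  obtain ⟨K₁, K₂, z₁, ha, he⟩ := id hφ
  obtain ⟨u, hu⟩ := Ori.rad_bd (O := O) (U := U) (V := V) (i := i + 1 + 1) (j := j) hD (by omega)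
  have hBV : bd k (cap' (j + 1) φ z₁) - bd k c ∈ (On V).B k j := by
    obtain ⟨_, ⟨b, -, rfl⟩, y, hy, e⟩ := Submodule.mem_sup.1 he
    rw [← map_sub, ← e, map_add, bd_bd, zero_add]
    exact Sb.bd_mem_B hy
  have hcy : bd k c ∈ cyc k X j := Sb.B_le_cyc (Sb.bd_mem_B hc)
  obtain ⟨ψ, hψ⟩ := Sb.mem_Ex.1 (ex_off hO hX hD H.oV₁ (i := i + 1) (by omega)
    (((hu φ K₁ K₂ z₁ ha).congr (c' := (u : k) • bd k c)
      (by rw [← smul_sub]; exact Submodule.smul_mem _ _ hBV)).mono H.VV)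
    (Submodule.smul_mem _ _ hcy) fun K hK => Submodule.smul_mem _ _ (H.ea K hK ⟨hb, hcy⟩))
  have hcl : ∀ {Y}, Y ⊆ Uᶜ ∩ V₁ᶜ → ψ ∈ (On Y).Z k k (i + 1) := fun hY => by
    have h1 := van_mono ((hY.trans inter_subset_left).trans (compl_subset_compl.2 ha.KU)) ha.hφ
    have h2 := van_mono (hY.trans inter_subset_right) hψ
    exact Sb.mem_Z.2 (by simpa using Submodule.sub_mem _ h1 h2)
  obtain ⟨a, haL, xa, hxa, ea⟩ := Submodule.mem_sup.1 (H.wl (hcl H.l₁))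
  obtain ⟨b, hbR, xb, hxb, eb⟩ := Submodule.mem_sup.1 (H.wr (hcl H.r₁))
  obtain ⟨pa, hpa⟩ := Sb.mem_Ex.1 hxa
  obtain ⟨pb, hpb⟩ := Sb.mem_Ex.1 hxb
  obtain ⟨e, e1, e2⟩ := exists_two (k := k)
    (disjoint_left.2 fun x h h' => C.rA h' (C.lA h)) pa pb
  set η := ψ - cob k e - glue A a b with hη
  have η1 : η ∈ (On L').van k k (i + 1) := by
    have := Submodule.sub_mem _ (Submodule.sub_mem _ hpa (Sb.cob_mem e1))
      (van_mono C.lA (glue_l a b))
    rwa [show xa - cob k pa - cob k (e - pa) - (glue A a b - a) = η by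
      rw [hη, ← ea, map_sub]; abel] at this
  have η2 : η ∈ (On R').van k k (i + 1) := by
    have := Submodule.sub_mem _ (Submodule.sub_mem _ hpb (Sb.cob_mem e2))
      (van_mono C.rA (glue_r a b))
    rwa [show xb - cob k pb - cob k (e - pb) - (glue A a b - b) = η by
      rw [hη, ← eb, map_sub]; abel] at this
  set h := (-1 : k) ^ (i + 1) • (a - b) with hh
  set ω := cup (LinearMap.mul k k) (i + 1 + 1) h (cob k (cut k A)) with hω
  have hg : cob k (glue A a b) - ω ∈ (Sm 𝒰).van k k (i + 1 + 1) := C.cob_glue (H.zl haL) (H.zr hbR)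
  -- a good small chain
  obtain ⟨z', hz', hf'⟩ := fundS_holds k X (d + 1) O (K₁ ∪ K)
    (image2 (· ∩ ·) 𝒰 {U ∩ K₂ᶜ, V, K₁ᶜ}) (ha.hK.union hK)
    (by
      rintro _ ⟨Y, hY, Y', hY', rfl⟩
      refine (C.op Y hY).inter ?_
      rcases hY' with rfl | rfl | rfl
      exacts [H.oU.inter ha.hL.isClosed.isOpen_compl, H.oV, ha.hK.isClosed.isOpen_compl])
    (fun x _ => by
      obtain ⟨Y, hY, hx⟩ := C.cov (mem_univ x)
      by_cases h1 : x ∈ K₁
      · by_cases h2 : x ∈ K₂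
        · exact ⟨_, ⟨Y, hY, V, by simp, rfl⟩, hx, ha.LV h2⟩
        · exact ⟨_, ⟨Y, hY, U ∩ K₂ᶜ, by simp, rfl⟩, hx, ha.KU h1, h2⟩
      · exact ⟨_, ⟨Y, hY, K₁ᶜ, by simp, rfl⟩, hx, h1⟩)
  have s1 : z' ∈ (Sm 𝒰).ch k (d + 2) := Sb.ch_mono (Sm_le (by
    rintro _ ⟨Y, hY, Y', -, rfl⟩; exact ⟨Y, hY, inter_subset_left⟩)) hz'
  have s2 : z' ∈ (Sm {U ∩ K₂ᶜ, V, K₁ᶜ}).ch k (d + 2) := Sb.ch_mono (Sm_le (by
    rintro _ ⟨Y, -, Y', hY', rfl⟩; exact ⟨Y', hY', inter_subset_right⟩)) hz'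
  rw [Sm_insert, Sm_pair, Sb.ch_sup, Sb.ch_sup, ← sup_assoc] at s2
  obtain ⟨z0, h0, z2, h2, ez⟩ := Submodule.mem_sup.1 s2
  have fK := hf'.mono hK (ha.hK.union hK) subset_union_right
  have f1 : cap' (j + 1) φ z' - c ∈ RN k W F (j + 1) := by
    have := hφ.spec hD H.oU H.oV H.VU (by omega)
      (⟨ha.hK, ha.hL, ha.KU, ha.LV, ha.LK, ha.hφ, ha.hθ, h0,
        (hf'.mono ha.hK (ha.hK.union hK) subset_union_left).of_sub
          (by rw [← ez]; simpa using h2)⟩ : O.RAd U V φ K₁ K₂ z0)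
    rw [← ez, map_add, show cap' (j + 1) φ z2 = 0 from hD.zero _ φ _ ha.hφ h2, add_zero]
    exact RN_mono hUW hVF this
  have f2 : cap' (j + 1) (φ - cob k ψ) z' ∈ RN k W F (j + 1) :=
    ch_le_RN (loc_sm hD (T := univ) (fun Y hY => (hF Y hY).imp (fun h => van_mono h hψ)
      fun h => inter_subset_left.trans h) s1 (mem_ch_univ _))
  have f3 : cap' (j + 1) (cob k η) z' ∈ RN k W F (j + 1) :=
    D_cob hD (by omega) (loc_sm hD (C.alt' η1 η2 inter_subset_left) s1 (mem_ch_univ _))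
      (loc_sm hD (C.alt' η1 η2 hKF) (Sb.bd_mem s1) fK.rc)
  have f4 : cap' (j + 1) (cob k (glue A a b) - ω) z' = 0 := loc_zero hD hg s1
  have f5 : cap' (j + 1) ω z' - cap' (j + 1) ω z ∈ RN k W F (j + 1) :=
    D_indep hD C.op C.cov (by omega)
      (ω := ω) (Sb.mem_Z.2 (by simpa using Submodule.neg_mem _ (Sb.cob_mem hg)))
      (C.alt (cup_van_r _ _ (van_mono C.lA cob_cut_l)) (cup_van_r _ _ (van_mono C.rA cob_cut_r)))
      hKF s1 hz fK hf
  have f6 : cap' (j + 1) ω z = cap' (j + 1) h (wall A z) := cap'_cup (by omega) (by omega) _ _ z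
  refine ⟨(-1 : k) ^ (i + 1) • a, HL.smul_mem _ haL, -((-1 : k) ^ (i + 1) • b),
    HR.neg_mem (HR.smul_mem _ hbR), ?_⟩
  have e3 : φ = φ - cob k ψ + (cob k η + (cob k (glue A a b) - ω + ω)) := by
    rw [hη, map_sub, map_sub, cob_cob]; abel
  have e4 : cap' (j + 1) φ z' = cap' (j + 1) (φ - cob k ψ) z' + (cap' (j + 1) (cob k η) z' +
      (cap' (j + 1) (cob k (glue A a b) - ω) z' + cap' (j + 1) ω z')) := by
    conv_lhs => rw [e3]
    exact (hD.add _ _ _).trans (congrArg _ ((hD.add _ _ _).trans (congrArg _ (hD.add _ _ _))))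
  rw [← sub_eq_add_neg, ← smul_sub, ← hh, ← f6]
  have := Submodule.add_mem _ (Submodule.add_mem _ (Submodule.sub_mem _ f2 f1) f3) f5
  rwa [show cap' (j + 1) (φ - cob k ψ) z' - (cap' (j + 1) φ z' - c) + cap' (j + 1) (cob k η) z' +
    (cap' (j + 1) ω z' - cap' (j + 1) ω z) = c - cap' (j + 1) ω z by rw [e4, f4]; abel] at this

/-- the data of `det_wall` and any chain `w` which is homologous to the wall -/
structure Wl (O : Ori k (d + 1) X) (𝒰 : Set (Set X)) (A L R W F V₁ : Set X) (w : Ch k (d + 1) X) :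
    Prop where
  far : ∀ Y ∈ 𝒰, Y ⊆ V₁ᶜ ∨ Y ⊆ F
  WL : W ⊆ L
  WR : W ⊆ R
  FW : F ⊆ W
  ex : ∃ K z, IsCompact K ∧ W \ K ⊆ F ∧ z ∈ (Sm 𝒰).ch k (d + 2) ∧ O.Fund K z ∧
    wall A z - w ∈ RN k W F (d + 1)

omit [T2Space X] [ChartedSpace (EE (d + 1 + 1)) X] in
theorem Wl.mem {w : Ch k (d + 1) X} (C : Cut 𝒰 A L R L' R' W) (h : Wl O 𝒰 A L R W F V₁ w) :
    w ∈ (On W).ch k (d + 1) ∧ bd k w ∈ (On F).ch k d := by
  obtain ⟨K, z, -, h2, h3, h4, h5⟩ := h.ex
  obtain ⟨_, ⟨b, hb, rfl⟩, y, hy, e⟩ := Submodule.mem_sup.1 h5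
  have : w = wall A z - (bd k b + y) := by rw [e]; abel
  rw [this]
  refine ⟨Submodule.sub_mem _ (C.wall_mem h3) (Submodule.add_mem _ (Sb.bd_mem hb) (ch_mono h.FW hy)), ?_⟩
  rw [map_sub, map_add, bd_bd, zero_add]
  exact Submodule.sub_mem _ (C.bd_wall h3 h4.rc h2) (Sb.bd_mem hy)

omit [T2Space X] [ChartedSpace (EE (d + 1 + 1)) X] in
theorem Wl.congr {w w' : Ch k (d + 1) X} (h : Wl O 𝒰 A L R W F V₁ w)
    (e : w - w' ∈ RN k W F (d + 1)) : Wl O 𝒰 A L R W F V₁ w' := by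
  obtain ⟨K, z, h1, h2, h3, h4, h5⟩ := h.ex
  exact ⟨h.far, h.WL, h.WR, h.FW, K, z, h1, h2, h3, h4, by simpa using Submodule.add_mem _ h5 e⟩

variable (hO : O.ND) (hX : Acy k (univ : Set X) univ) (C : Cut 𝒰 A L R L' R' W)
  (H : Dt k i j U V V₁ L₁ R₁ L R L' R' HL HR) (hij : i + 1 + j = d) (hUW : U ⊆ W) (hVF : V ⊆ F)
  {w : Ch k (d + 1) X} (hw : Wl O 𝒰 A L R W F V₁ w)
include hO hX C H hij hUW hVF hw

/-- **window detection**, back cap -/
theorem det' {c : Ch k (j + 1) X} (hc : c ∈ (On U).ch k (j + 1)) (hb : bd k c ∈ (On V).ch k j) :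
    ∃ a ∈ HL, ∃ b ∈ HR, c - cap' (j + 1) (a + b) w ∈ RN k W F (j + 1) := by
  obtain ⟨K, z, h1, h2, h3, h4, h5⟩ := hw.ex
  obtain ⟨a, ha, b, hb, e⟩ := det_wall hO hX C H hij hUW hVF hw.far h1 h2 h3 h4 hc hb
  refine ⟨a, ha, b, hb, ?_⟩
  have := D_RN cD (show i + 1 + (j + 1) = d + 1 by omega) (Submodule.add_mem _
    (Sb.Z_mono (On_le hw.WL) (H.zl ha)) (Sb.Z_mono (On_le hw.WR) (H.zr hb))) h5
  simpa using Submodule.add_mem _ e this

/-- **window detection**, front cap -/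
theorem det {c : Ch k (j + 1) X} (hc : c ∈ (On U).ch k (j + 1)) (hb : bd k c ∈ (On V).ch k j) :
    ∃ a ∈ HL, ∃ b ∈ HR, c - cap (j + 1) (a + b) w ∈ RN k W F (j + 1) := by
  obtain ⟨a, ha, b, hb, e⟩ := det' hO hX C H hij hUW hVF hw hc hb
  set u : k := (-1) ^ ((i + 1) * (j + 1)) with hu
  have uu : u * u = 1 := by rw [hu, ← mul_pow]; simp
  refine ⟨u • a, HL.smul_mem _ ha, u • b, HR.smul_mem _ hb, ?_⟩
  have := cap_sub_cap' (show i + 1 + (j + 1) = d + 1 by omega) (Submodule.add_mem _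
    (Sb.Z_mono (On_le hw.WL) (H.zl ha)) (Sb.Z_mono (On_le hw.WR) (H.zr hb))) (hw.mem C).1 (hw.mem C).2
  rw [← smul_add, show cap (j + 1) (u • (a + b)) w = u • cap (j + 1) (a + b) w from cD'.smul _ _ _]
  have h2 := Submodule.sub_mem _ e (Submodule.smul_mem _ u this)
  rwa [← hu, smul_sub, smul_smul, uu, one_smul, show c - cap' (j + 1) (a + b) w -
    (u • cap (j + 1) (a + b) w - cap' (j + 1) (a + b) w) = c - u • cap (j + 1) (a + b) w by abel] at h2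

variable {M : Type} [AddCommGroup M] [Module k M]

/-- evaluation form: the values of a relative cocycle lie in any submodule which contains its values on
the cap cycles -/
theorem det_mem {f : Co M (j + 1) X} (hf : f ∈ (On W).Z k M (j + 1)) (hf' : f ∈ (On F).van k M (j + 1))
    (N : Submodule k M)
    (h : (∀ a, a ∈ HL ∨ a ∈ HR → ev k f (cap (j + 1) a w) ∈ N) ∨
      ∀ a, a ∈ HL ∨ a ∈ HR → ev k f (cap' (j + 1) a w) ∈ N)
    {c : Ch k (j + 1) X} (hc : c ∈ (On U).ch k (j + 1)) (hb : bd k c ∈ (On V).ch k j) :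
    ev k f c ∈ N := by
  rcases h with h | h
  · obtain ⟨a, ha, b, hb, e⟩ := det hO hX C H hij hUW hVF hw hc hb
    have := ev_RN hf hf' e
    rw [map_sub, sub_eq_zero, show cap (j + 1) (a + b) w = _ from cD'.add _ _ _, map_add] at this
    exact this ▸ N.add_mem (h a (Or.inl ha)) (h b (Or.inr hb))
  · obtain ⟨a, ha, b, hb, e⟩ := det' hO hX C H hij hUW hVF hw hc hb
    have := ev_RN hf hf' e
    rw [map_sub, sub_eq_zero, show cap' (j + 1) (a + b) w = _ from cD.add _ _ _, map_add] at this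
    exact this ▸ N.add_mem (h a (Or.inl ha)) (h b (Or.inr hb))

/-- cohomological form -/
theorem det_coh {f : Co M (j + 1) X} (hf : f ∈ (On W).Z k M (j + 1)) (hf' : f ∈ (On F).van k M (j + 1))
    (h : (∀ a, a ∈ HL ∨ a ∈ HR → ev k f (cap (j + 1) a w) = 0) ∨
      ∀ a, a ∈ HL ∨ a ∈ HR → ev k f (cap' (j + 1) a w) = 0) :
    ∃ e ∈ (On V).van k M j, f - cob k e ∈ (On U).van k M (j + 1) :=
  (uctS_holds k X j).2 M _ _ f fun _ hc hb =>
    det_mem hO hX C H hij hUW hVF hw hf hf' ⊥ h hc hb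

end Crest.Agent.N255.Wn

end
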