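import Crest.Agent.N255.Wn.B2
import Crest.Agent.N255.Wv.Cmp
import Crest.Agent.N255.Wv.Var

/-!
# Row 255 (helper46): SPAN′ (absolute classes on a side are spanned by the variables) and detection by
the variables only
-/

set_option autoImplicit false
open Set

noncomputable section

namespace Crest.Agent.N255.Wn

open Tp Wv En Nv Pt Lv

section abs

variable {X : Type} [TopologicalSpace X] {k : Type} [Field k] {i K m : ℕ} {A B : ℕ → Set X}

/-- the uncut variables of scale at most `m` -/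
def Vs (V : Var k i A B) (K m : ℕ) : Set (Co k (i + 1) X) :=
  {x | ∃ q : V.Ix K, Var.sc q ≤ m ∧ Var.cl q = x}

theorem zp_far (V : Var k i A B) (hB : Antitone B) (hm : m ≤ K) :
    ZP k (B (m + 1)) k (i + 1) ≤ Submodule.span k (Vs V K m) ⊔ BP k (B (m + 2)) k (i + 1) := fun φ hφ => by
  obtain ⟨x, h1, h2⟩ := Var.span (V := V) hB hm hφ
  refine Submodule.mem_sup.2 ⟨∑ q, x q • Var.cl q, Submodule.sum_mem _ fun q _ => ?_, _, h2, by abel⟩
  by_cases h : m < Var.sc q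
  · rw [h1 q h, zero_smul]; exact Submodule.zero_mem _
  · exact Submodule.smul_mem _ _ (Submodule.subset_span ⟨q, not_lt.1 h, rfl⟩)

variable {s : C(X, ℝ)} {l r : ℕ → ℝ} {t : ℝ}

theorem zp_lo (W : Win k i s l r) (V : Var k i A fun m => lo s (r m)) (hm : m ≤ K) (h1 : l (m + 1) ≤ t)
    (h2 : t ≤ r (m + 1)) :
    ZP k (lo s t) k (i + 1) ≤ Submodule.span k (Vs V K m) ⊔ BP k (lo s (l m)) k (i + 1) :=
  (W.cl m t ⟨h1, h2⟩ _ ⟨(W.lt _ _).le, le_rfl⟩).trans (sup_le ((zp_far V W.anti_r hm).trans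
    (sup_le_sup_left (BP_mono (lo_mono (W.lt _ _).le)) _)) le_sup_right)

theorem anti_l (W : Win k i s l r) : Antitone fun m => hi s (l m) :=
  fun _ _ h => hi_mono (W.ml.monotone h)

theorem zp_hi (W : Win k i s l r) (V : Var k i A fun m => hi s (l m)) (hm : m ≤ K) (h1 : l (m + 1) ≤ t)
    (h2 : t ≤ r (m + 1)) :
    ZP k (hi s t) k (i + 1) ≤ Submodule.span k (Vs V K m) ⊔ BP k (hi s (r m)) k (i + 1) :=
  (W.cr m t ⟨h1, h2⟩ _ ⟨le_rfl, (W.lt _ _).le⟩).trans (sup_le ((zp_far V (anti_l W) hm).trans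
    (sup_le_sup_left (BP_mono (hi_mono (W.lt _ _).le)) _)) le_sup_right)

theorem sp_A {Z : Submodule k (Co k (i + 1) X)} {U U' : Set X} {H : Set (Co k (i + 1) X)} (hU : U' ⊆ U)
    (h : Z ≤ ZP k U k (i + 1) ⊔ (On U).Ex k k (i + 1))
    (h' : ZP k U k (i + 1) ≤ Submodule.span k H ⊔ BP k U' k (i + 1)) :
    Z ≤ Submodule.span k H ⊔ (On U').Ex k k (i + 1) :=
  h.trans (sup_le (h'.trans (sup_le_sup_left BP_le_Ex _)) ((Sb.Ex_mono (On_le hU)).trans le_sup_right))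

theorem sp_B {Z : Submodule k (Co k (i + 1) X)} {U U' : Set X} {H : Set (Co k (i + 1) X)}
    {g : Co k (i + 1) X} (hU : U' ⊆ U) (h : Z ≤ ZP k U k (i + 1) ⊔ k ∙ g ⊔ (On U).Ex k k (i + 1))
    (h' : ZP k U k (i + 1) ≤ Submodule.span k H ⊔ BP k U' k (i + 1)) :
    Z ≤ Submodule.span k (insert g H) ⊔ (On U').Ex k k (i + 1) :=
  h.trans (sup_le (sup_le (h'.trans (sup_le_sup (Submodule.span_mono (subset_insert _ _)) BP_le_Ex))
    ((Submodule.span_mono (singleton_subset_iff.2 (mem_insert _ _))).trans le_sup_left))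
    ((Sb.Ex_mono (On_le hU)).trans le_sup_right))

end abs

section ends

variable {ι S : Type} [DecidableEq ι] [MulAction (FreeGroup ι) S] {w : En.Wl ι S}
  {F : Subgroup (FreeGroup ι)} {X : Type} [TopologicalSpace X] [MulAction F X] {k : Type} [Field k]
  (hX : Acy k (univ : Set X) univ) (hc : Hc0 k X k 2) (E : End w F k X) (M : Md w) (e : Ed ι)
  {l r : ℕ → ℝ} (W : Win k 0 (E.s e) l r) (l0 : 0 ≤ l 0) (r0 : r 0 ≤ 1) {A : ℕ → Set X} {K m : ℕ}
  (hm : m ≤ K) {u t ρ : ℝ} {g : Co k 1 X}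

omit [DecidableEq ι] in
theorem l_pos {s : C(X, ℝ)} (W : Win k 0 s l r) (l0 : 0 ≤ l 0) (m : ℕ) : 0 < l (m + 1) :=
  l0.trans_lt (W.ml m.succ_pos)

omit [DecidableEq ι] in
theorem r_lt {s : C(X, ℝ)} (W : Win k 0 s l r) (r0 : r 0 ≤ 1) (m : ℕ) : r (m + 1) < 1 :=
  (W.ar m.succ_pos).trans_le r0

include hX hc W l0 hm

/-- low side, the meridian extends (`g`), near form -/
theorem span_lo_B (V : Var k 0 A fun m => lo (E.s e) (r m)) (h : l (m + 1) < t) (h1 : t < 1)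
    (hu : l (m + 1) ≤ u) (hg : ExtBy E.toLev M k e u ρ g) : (On (lo (E.s e) t)).Z k k 1 ≤
      Submodule.span k (insert g (Vs V K m)) ⊔ (On (lo (E.s e) (l m))).Ex k k 1 :=
  sp_B (lo_mono (W.ml m.lt_succ_self).le) (case_B hX hc E M e (l_pos W l0 m) h h1 hu hg)
    (zp_lo W V hm le_rfl (W.lt _ _).le)

/-- low side, the meridian extends (`g`), far form -/
theorem span_lo_B' (V : Var k 0 A fun m => lo (E.s e) (r m)) (h : r (m + 1) < t) (h1 : t < 1)
    (hu : r (m + 1) ≤ u) (hg : ExtBy E.toLev M k e u ρ g) : (On (lo (E.s e) t)).Z k k 1 ≤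
      Submodule.span k (insert g (Vs V K m)) ⊔ (On (lo (E.s e) (r (m + 2)))).Ex k k 1 :=
  sp_B (lo_mono (W.ar (m + 1).lt_succ_self).le)
    (case_B hX hc E M e ((l_pos W l0 m).trans (W.lt _ _)) h h1 hu hg) (zp_far V W.anti_r hm)

/-- low side, the meridian does not extend, near form -/
theorem span_lo_A (V : Var k 0 A fun m => lo (E.s e) (r m)) (h : l (m + 1) < t) (h1 : t < 1)
    (hu : u ≤ l (m + 1)) (hn : ¬Wv.Ext E.toLev M k e u) : (On (lo (E.s e) t)).Z k k 1 ≤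
      Submodule.span k (Vs V K m) ⊔ (On (lo (E.s e) (l m))).Ex k k 1 :=
  sp_A (lo_mono (W.ml m.lt_succ_self).le) (case_A hX hc E M e (l_pos W l0 m) h h1 hu hn)
    (zp_lo W V hm le_rfl (W.lt _ _).le)

/-- low side, the meridian does not extend, far form -/
theorem span_lo_A' (V : Var k 0 A fun m => lo (E.s e) (r m)) (h : r (m + 1) < t) (h1 : t < 1)
    (hu : u ≤ r (m + 1)) (hn : ¬Wv.Ext E.toLev M k e u) : (On (lo (E.s e) t)).Z k k 1 ≤
      Submodule.span k (Vs V K m) ⊔ (On (lo (E.s e) (r (m + 2)))).Ex k k 1 :=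
  sp_A (lo_mono (W.ar (m + 1).lt_succ_self).le)
    (case_A hX hc E M e ((l_pos W l0 m).trans (W.lt _ _)) h h1 hu hn) (zp_far V W.anti_r hm)

omit l0 in
include r0 in
/-- high side, the meridian of `rev e` extends (`g`), near form -/
theorem span_hi_B (V : Var k 0 A fun m => hi (E.s e) (l m)) (h0 : 0 < t) (h : t < r (m + 1))
    (hu : u ≤ r (m + 1)) (hg : ExtBy E.toLev M k (rev e) (1 - u) ρ g) : (On (hi (E.s e) t)).Z k k 1 ≤
      Submodule.span k (insert g (Vs V K m)) ⊔ (On (hi (E.s e) (r m))).Ex k k 1 :=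
  sp_B (hi_mono (W.ar m.lt_succ_self).le) (case_B_hi hX hc E M e h0 h (r_lt W r0 m) hu hg)
    (zp_hi W V hm (W.lt _ _).le le_rfl)

omit l0 in
include r0 in
/-- high side, the meridian of `rev e` extends (`g`), far form -/
theorem span_hi_B' (V : Var k 0 A fun m => hi (E.s e) (l m)) (h0 : 0 < t) (h : t < l (m + 1))
    (hu : u ≤ l (m + 1)) (hg : ExtBy E.toLev M k (rev e) (1 - u) ρ g) : (On (hi (E.s e) t)).Z k k 1 ≤
      Submodule.span k (insert g (Vs V K m)) ⊔ (On (hi (E.s e) (l (m + 2)))).Ex k k 1 :=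
  sp_B (hi_mono (W.ml (m + 1).lt_succ_self).le)
    (case_B_hi hX hc E M e h0 h ((W.lt _ _).trans (r_lt W r0 m)) hu hg) (zp_far V (anti_l W) hm)

omit l0 in
include r0 in
/-- high side, the meridian of `rev e` does not extend, near form -/
theorem span_hi_A (V : Var k 0 A fun m => hi (E.s e) (l m)) (h0 : 0 < t) (h : t < r (m + 1))
    (hu : r (m + 1) ≤ u) (hn : ¬Wv.Ext E.toLev M k (rev e) (1 - u)) : (On (hi (E.s e) t)).Z k k 1 ≤
      Submodule.span k (Vs V K m) ⊔ (On (hi (E.s e) (r m))).Ex k k 1 :=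
  sp_A (hi_mono (W.ar m.lt_succ_self).le) (case_A_hi hX hc E M e h0 h (r_lt W r0 m) hu hn)
    (zp_hi W V hm (W.lt _ _).le le_rfl)

omit l0 in
include r0 in
/-- high side, the meridian of `rev e` does not extend, far form -/
theorem span_hi_A' (V : Var k 0 A fun m => hi (E.s e) (l m)) (h0 : 0 < t) (h : t < l (m + 1))
    (hu : l (m + 1) ≤ u) (hn : ¬Wv.Ext E.toLev M k (rev e) (1 - u)) : (On (hi (E.s e) t)).Z k k 1 ≤
      Submodule.span k (Vs V K m) ⊔ (On (hi (E.s e) (l (m + 2)))).Ex k k 1 :=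
  sp_A (hi_mono (W.ml (m + 1).lt_succ_self).le)
    (case_A_hi hX hc E M e h0 h ((W.lt _ _).trans (r_lt W r0 m)) hu hn) (zp_far V (anti_l W) hm)

end ends

section det

variable {X : Type} [TopologicalSpace X] {k : Type} [Field k] {i j d : ℕ} {𝒞 : Set (Set X)}
  {M : Type} [AddCommGroup M] [Module k M] {O : Ori k (d + 1) X} {R : ℝ} {r : C(X, ℝ)}
  (ho : ∀ C ∈ 𝒞, IsOpen C) (hc : univ ⊆ ⋃₀ 𝒞)

theorem per_span_mem {n : ℕ} (J : Submodule k M) {H : Set (Co k i X)} {f : Co M j X} {y : Ch k n X}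
    (h : ∀ x ∈ H, per n x f y ∈ J) {x : Co k i X} (hx : x ∈ Submodule.span k H) : per n x f y ∈ J := by
  induction hx using Submodule.span_induction with
  | mem x hx => exact h x hx
  | zero => rw [← zero_smul k (0 : Co k i X), per_smul, zero_smul]; exact J.zero_mem
  | add x y _ _ a b => rw [per_add]; exact J.add_mem a b
  | smul a x _ b => rw [per_smul]; exact J.smul_mem a b

include ho hc in
/-- periods of a class spanned by `H` up to a class exact on the window -/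
theorem per_span (hn : i + j = d) (J : Submodule k M) {s : C(X, ℝ)} {a b : ℝ} {f : Co M j X}
    (f1 : ∀ σ ∈ (SB 𝒞 (win s a b)).S (j + 1), cob k f σ ∈ J)
    (f2 : ∀ σ ∈ (SB 𝒞 (fw s r a b R)).S j, f σ ∈ J) {y : Ch k (d + 1) X} (hw : Wr O 𝒞 s r a b R y)
    (hy : y ∈ (Sm 𝒞).ch k (d + 1)) {H : Set (Co k (i + 1) X)} (h : ∀ x ∈ H, per (d + 1) x f y ∈ J)
    {U : Set X} (hU : win s a b ⊆ U) {x : Co k (i + 1) X}
    (hx : x ∈ Submodule.span k H ⊔ (On U).Ex k k (i + 1)) : per (d + 1) x f y ∈ J := by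
  obtain ⟨p, hp, q, hq, rfl⟩ := Submodule.mem_sup.1 hx
  rw [per_add]
  exact J.add_mem (per_span_mem J h hp) (die ho hc J f1 f2 hw hy hn
    (Sb.Ex_mono (Sb.inf_le_left.trans (On_le hU)) hq))

variable [T2Space X] [ChartedSpace (EE (d + 1 + 1)) X] (hO : O.ND) (hX : Acy k (univ : Set X) univ)
  (hij : i + 1 + j = d) {ι : Type}
include ho hc hO hX hij

/-- **detection on a star by spanning classes** -/
theorem det_star_sp (J : Finset ι) {s : ι → C(X, ℝ)} {a a' b : ι → ℝ} (ha : ∀ e ∈ J, a e ≤ a' e)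
    (hab : ∀ e ∈ J, a' e < b e) (hd : ∀ e ∈ J, ∀ e' ∈ J, e ≠ e' → ∀ x, a e < s e x → s e' x ≤ a e')
    (hK : ∀ e ∈ J, IsCompact (box (s e) r (a e) (b e) R)) {H : ι → Set (Co k (i + 1) X)}
    (sp : ∀ e ∈ J, (On (hi (s e) (a e))).Z k k (i + 1) ≤
      Submodule.span k (H e) ⊔ (On (hi (s e) (a' e))).Ex k k (i + 1)) {y : ι → Ch k (d + 1) X}
    (hw : ∀ e ∈ J, Wr O 𝒞 (s e) r (a' e) (b e) R (y e) ∧ y e ∈ (Sm 𝒞).ch k (d + 1))
    {f : Co k (j + 1) X} (f0 : f ∈ Cc k univ k (j + 1))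
    (f1 : f ∈ (SB 𝒞 {x | ∀ e ∈ J, s e x < b e}).Z k k (j + 1))
    (f2 : ∀ e ∈ J, f ∈ (SB 𝒞 (fw (s e) r (a e) (b e) R)).van k k (j + 1))
    (h : ∀ e ∈ J, ∀ x ∈ H e, per (d + 1) x f (y e) = 0) :
    ∃ θ ∈ Cc k univ k j, f - cob k θ ∈ (SB 𝒞 {x | ∀ e ∈ J, s e x ≤ a e}).van k k (j + 1) :=
  det_star hO hX hij ho hc J (fun e he => (ha e he).trans_lt (hab e he)) hd hK
    (fun e he => ⟨(hw e he).1.mono ho hc (ha e he) le_rfl le_rfl (hK e he), (hw e he).2⟩) f0 f1 f2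
    fun e he x hx => (Submodule.mem_bot k).1 (per_span ho hc (by omega) ⊥
      (fun σ hσ => (Submodule.mem_bot k).2 (f1 σ (SB_mono (fun p hp e' he' => by
        by_cases hne : e = e'
        · exact hne ▸ hp.2
        · exact (hd e he e' he' hne p ((ha e he).trans_lt hp.1)).trans_lt
            ((ha e' he').trans_lt (hab e' he'))) _ hσ)))
      (fun σ hσ => (Submodule.mem_bot k).2 (f2 e he σ (SB_mono (fw_mono (ha e he) le_rfl le_rfl) _ hσ)))
      (hw e he).1 (hw e he).2 (fun x hx => (Submodule.mem_bot k).2 (h e he x hx)) win_hi (sp e he hx))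

/-- **detection on a window by spanning classes** -/
theorem det_win_sp {s : C(X, ℝ)} {a a₀ a' b' b₀ b : ℝ} (h1 : a < a₀) (h2 : a₀ ≤ a') (h3 : a' ≤ b')
    (h4 : b' ≤ b₀) (h5 : b₀ < b) (hK : IsCompact (box s r a b R)) {HL HR : Set (Co k (i + 1) X)}
    (sl : (On (lo s a')).Z k k (i + 1) ≤ Submodule.span k HL ⊔ (On (lo s a₀)).Ex k k (i + 1))
    (sr : (On (hi s b')).Z k k (i + 1) ≤ Submodule.span k HR ⊔ (On (hi s b₀)).Ex k k (i + 1))
    {y y' : Ch k (d + 1) X} (hw : Wr O 𝒞 s r a a₀ R y) (hy : y ∈ (Sm 𝒞).ch k (d + 1))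
    (hw' : Wr O 𝒞 s r b₀ b R y') (hy' : y' ∈ (Sm 𝒞).ch k (d + 1)) {f : Co k (j + 1) X}
    (f0 : f ∈ Cc k univ k (j + 1)) (f1 : f ∈ (SB 𝒞 (win s a b)).Z k k (j + 1))
    (f2 : f ∈ (SB 𝒞 (fw s r a a' R)).van k k (j + 1)) (f2' : f ∈ (SB 𝒞 (fw s r b' b R)).van k k (j + 1))
    (h : ∀ x ∈ HL, per (d + 1) x f y = 0) (h' : ∀ x ∈ HR, per (d + 1) x f y' = 0) :
    ∃ θ ∈ Cc k univ k j, f - cob k θ ∈ (SB 𝒞 {x | a' ≤ s x ∧ s x ≤ b'}).van k k (j + 1) :=
  det_win hO hX hij ho hc (h1.trans_le h2) h3 (h4.trans_lt h5) hK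
    (hw.mono ho hc le_rfl h2 le_rfl
      (hK.of_isClosed_subset isClosed_box (box_mono le_rfl (by linarith) le_rfl))) hy
    (hw'.mono ho hc h4 le_rfl le_rfl
      (hK.of_isClosed_subset isClosed_box (box_mono (by linarith) le_rfl le_rfl))) hy' f0 f1 f2 f2'
    (fun x hx => (Submodule.mem_bot k).1 (per_span ho hc (by omega) ⊥
      (fun σ hσ => (Submodule.mem_bot k).2 (f1 σ (SB_mono (win_mono le_rfl (by linarith)) _ hσ)))
      (fun σ hσ => (Submodule.mem_bot k).2 (f2 σ (SB_mono (fw_mono le_rfl h2 le_rfl) _ hσ)))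
      hw hy (fun x hx => (Submodule.mem_bot k).2 (h x hx)) win_lo (sl hx)))
    fun x hx => (Submodule.mem_bot k).1 (per_span ho hc (by omega) ⊥
      (fun σ hσ => (Submodule.mem_bot k).2 (f1 σ (SB_mono (win_mono (by linarith) le_rfl) _ hσ)))
      (fun σ hσ => (Submodule.mem_bot k).2 (f2' σ (SB_mono (fw_mono h4 le_rfl le_rfl) _ hσ)))
      hw' hy' (fun x hx => (Submodule.mem_bot k).2 (h' x hx)) win_hi (sr hx))

end det

end Crest.Agent.N255.Wn
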