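import Crest.Agent.N255.Wi.Abs

/-!
# Row 255, block D (helper46): windows of constancy
-/

set_option autoImplicit false
open Set

namespace Crest.Agent.N255.Wn

open Wi

/-- inside `(a, b)` every interval contains an interval on which `S` is constant -/
def Stab {α : Sort*} (S : ℝ → α) (a b : ℝ) : Prop :=
  ∀ x y, a < x → x < y → y < b → ∃ x' y', x < x' ∧ x' < y' ∧ y' < y ∧ ∀ t ∈ Icc x' y', S t = S x'

namespace Stab

variable {α β : Type*} {S : ℝ → α} {S' : ℝ → β} {a b : ℝ}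

theorem const (c : α) : Stab (fun _ => c) a b := fun x y _ h _ =>
  ⟨(2 * x + y) / 3, (x + 2 * y) / 3, by linarith, by linarith, by linarith, fun _ _ => rfl⟩

theorem prod (h : Stab S a b) (h' : Stab S' a b) : Stab (fun t => (S t, S' t)) a b := by
  intro x y h1 h2 h3
  obtain ⟨u, v, a1, a2, a3, a4⟩ := h x y h1 h2 h3
  obtain ⟨u', v', b1, b2, b3, b4⟩ := h' u v (by linarith) a2 (by linarith)
  refine ⟨u', v', by linarith, b2, by linarith, fun t ht => Prod.ext ?_ (b4 t ht)⟩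
  exact (a4 t ⟨by linarith [ht.1], by linarith [ht.2]⟩).trans
    (a4 u' ⟨b1.le, by linarith⟩).symm

theorem map (h : Stab S a b) (f : α → β) : Stab (fun t => f (S t)) a b := fun x y h1 h2 h3 =>
  let ⟨u, v, a1, a2, a3, a4⟩ := h x y h1 h2 h3
  ⟨u, v, a1, a2, a3, fun t ht => congrArg f (a4 t ht)⟩

theorem mono (h : Stab S a b) {a' b' : ℝ} (ha : a ≤ a') (hb : b' ≤ b) : Stab S a' b' :=
  fun x y h1 h2 h3 => h x y (by linarith) h2 (by linarith)

theorem finset {ι : Type*} {γ : ι → Type*} {S : ∀ i, ℝ → γ i} (h : ∀ i, Stab (S i) a b)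
    (s : Finset ι) : ∀ x y, a < x → x < y → y < b →
      ∃ x' y', x < x' ∧ x' < y' ∧ y' < y ∧ ∀ i ∈ s, ∀ t ∈ Icc x' y', S i t = S i x' := by
  classical
  induction s using Finset.induction_on with
  | empty => exact fun x y _ h _ =>
      ⟨(2 * x + y) / 3, (x + 2 * y) / 3, by linarith, by linarith, by linarith, by simp⟩
  | insert i s _ ih =>
    intro x y h1 h2 h3
    obtain ⟨u, v, a1, a2, a3, a4⟩ := ih x y h1 h2 h3
    obtain ⟨u', v', b1, b2, b3, b4⟩ := h i u v (by linarith) a2 (by linarith)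
    refine ⟨u', v', by linarith, b2, by linarith, fun j hj t ht => ?_⟩
    rcases Finset.mem_insert.1 hj with rfl | hj
    · exact b4 t ht
    · exact (a4 j hj t ⟨by linarith [ht.1], by linarith [ht.2]⟩).trans
        (a4 j hj u' ⟨b1.le, by linarith⟩).symm

theorem pi {ι : Type*} [Finite ι] {γ : ι → Type*} {S : ∀ i, ℝ → γ i} (h : ∀ i, Stab (S i) a b) :
    Stab (fun t i => S i t) a b := by
  have := Fintype.ofFinite ι
  intro x y h1 h2 h3
  obtain ⟨u, v, a1, a2, a3, a4⟩ := finset h Finset.univ x y h1 h2 h3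
  exact ⟨u, v, a1, a2, a3, fun t ht => funext fun i => a4 i (Finset.mem_univ i) t ht⟩

theorem of_neg (h : Stab (fun t => S (-t)) (-b) (-a)) : Stab S a b := by
  intro x y h1 h2 h3
  obtain ⟨u, v, a1, a2, a3, a4⟩ := h (-y) (-x) (by linarith) (by linarith) (by linarith)
  refine ⟨-v, -u, by linarith, by linarith, by linarith, fun t ht => ?_⟩
  have e1 := a4 (-t) ⟨by linarith [ht.2], by linarith [ht.1]⟩
  have e2 := a4 v ⟨a2.le, le_rfl⟩
  simp only [neg_neg] at e1
  exact e1.trans e2.symm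

end Stab

theorem stab_nat {f : ℝ → ℕ} {a b : ℝ} (h : MonotoneOn f (Ioo a b)) : Stab f a b := by
  have key : ∀ n x y, a < x → x < y → y < b → f y - f x ≤ n →
      ∃ x' y', x ≤ x' ∧ x' < y' ∧ y' ≤ y ∧ f x' = f y' := by
    intro n
    induction n with
    | zero =>
      intro x y h1 h2 h3 h4
      have := h ⟨h1, by linarith⟩ ⟨by linarith, h3⟩ h2.le
      exact ⟨x, y, le_rfl, h2, le_rfl, by omega⟩
    | succ n ih =>
      intro x y h1 h2 h3 h4
      have m1 : x < (x + y) / 2 := by linarith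
      have m2 : (x + y) / 2 < y := by linarith
      by_cases e : f x = f ((x + y) / 2)
      · exact ⟨x, _, le_rfl, m1, m2.le, e⟩
      · have := h ⟨h1, by linarith⟩ ⟨by linarith, by linarith⟩ m1.le
        obtain ⟨u, v, a1, a2, a3, a4⟩ := ih _ y (by linarith) m2 h3 (by omega)
        exact ⟨u, v, by linarith, a2, a3, a4⟩
  intro x y h1 h2 h3
  obtain ⟨u, v, a1, a2, a3, a4⟩ := key _ ((2 * x + y) / 3) ((x + 2 * y) / 3) (by linarith)
    (by linarith) (by linarith) le_rfl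
  have hu : u ∈ Ioo a b := ⟨by linarith, by linarith⟩
  have hv : v ∈ Ioo a b := ⟨by linarith, by linarith⟩
  refine ⟨u, v, by linarith, a2, by linarith, fun t ht => ?_⟩
  have ht' : t ∈ Ioo a b := ⟨by linarith [ht.1], by linarith [ht.2]⟩
  exact le_antisymm (a4 ▸ h ht' hv ht.2) (h hu ht' ht.1)

variable {k : Type*} [Field k] {M : Type*} [AddCommGroup M] [Module k M]

theorem eq_of_rank {B S S' : Submodule k M} (h : S ≤ S') (h' : FR S' B)
    (e : Module.finrank k (S.map B.mkQ) = Module.finrank k (S'.map B.mkQ)) : S ⊔ B = S' ⊔ B := by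
  have := Module.Finite.iff_fg.2 h'.fg_map_mkQ
  have e2 := Submodule.eq_of_le_of_finrank_eq (Submodule.map_mono h) e
  have := congrArg (Submodule.comap B.mkQ) e2
  simpa [Submodule.comap_map_mkQ, sup_comm] using this

/-- increasing families of finite rank modulo `B` -/
theorem stab_sup {S : ℝ → Submodule k M} {B : Submodule k M} {a b : ℝ}
    (h : MonotoneOn S (Ioo a b)) (hf : ∀ t ∈ Ioo a b, FR (S t) B) : Stab (fun t => S t ⊔ B) a b := by
  intro x y h1 h2 h3
  obtain ⟨u, v, a1, a2, a3, a4⟩ := stab_nat (f := fun t => Module.finrank k ((S t).map B.mkQ))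
    (a := a) (b := b) (fun s hs t ht hst => by
      have := Module.Finite.iff_fg.2 (hf t ht).fg_map_mkQ
      exact Submodule.finrank_mono (Submodule.map_mono (h hs ht hst))) x y h1 h2 h3
  refine ⟨u, v, a1, a2, a3, fun t ht => ?_⟩
  have ht' : t ∈ Ioo a b := ⟨by linarith [ht.1], by linarith [ht.2]⟩
  exact (eq_of_rank (h ⟨by linarith, by linarith⟩ ht' ht.1) (hf t ht') (a4 t ht).symm).symm

/-- decreasing families of finite rank modulo `B` -/
theorem stab_sup' {S : ℝ → Submodule k M} {B : Submodule k M} {a b : ℝ}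
    (h : AntitoneOn S (Ioo a b)) (hf : ∀ t ∈ Ioo a b, FR (S t) B) : Stab (fun t => S t ⊔ B) a b :=
  Stab.of_neg (stab_sup (S := fun t => S (-t))
    (fun s hs t ht hst => h ⟨by linarith [ht.2], by linarith [ht.1]⟩
      ⟨by linarith [hs.2], by linarith [hs.1]⟩ (by linarith))
    fun t ht => hf _ ⟨by linarith [ht.2], by linarith [ht.1]⟩)

/-- increasing families of finite corank in `C` -/
theorem stab_inf {S : ℝ → Submodule k M} {C : Submodule k M} {a b : ℝ}
    (h : MonotoneOn S (Ioo a b)) (hf : ∀ t ∈ Ioo a b, FR C (S t)) : Stab (fun t => C ⊓ S t) a b := by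
  intro x y h1 h2 h3
  have hx : x ∈ Ioo a b := ⟨h1, by linarith⟩
  obtain ⟨u, v, a1, a2, a3, a4⟩ := stab_sup (S := fun t => C ⊓ S t) (B := C ⊓ S x) (a := x) (b := b)
    (fun s hs t ht hst => inf_le_inf_left _ (h ⟨by linarith [hs.1], hs.2⟩
      ⟨by linarith [ht.1], ht.2⟩ hst)) (fun t _ => by
        obtain ⟨F, f1, -, f3⟩ := (hf x hx).exists_le
        exact ⟨F, f1, inf_le_left.trans f3⟩) ((x + y) / 2) y (by linarith) (by linarith) h3
  have key : ∀ t ∈ Icc u v, C ⊓ S t ⊔ C ⊓ S x = C ⊓ S t := fun t ht =>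
    sup_eq_left.2 (inf_le_inf_left _ (h hx ⟨by linarith [ht.1], by linarith [ht.2]⟩
      (by linarith [ht.1])))
  refine ⟨u, v, by linarith, a2, a3, fun t ht => ?_⟩
  have := a4 t ht
  simp only at this
  rwa [key t ht, key u ⟨le_rfl, a2.le⟩] at this

/-- decreasing families of finite corank in `C` -/
theorem stab_inf' {S : ℝ → Submodule k M} {C : Submodule k M} {a b : ℝ}
    (h : AntitoneOn S (Ioo a b)) (hf : ∀ t ∈ Ioo a b, FR C (S t)) : Stab (fun t => C ⊓ S t) a b :=
  Stab.of_neg (stab_inf (S := fun t => S (-t))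
    (fun s hs t ht hst => h ⟨by linarith [ht.2], by linarith [ht.1]⟩
      ⟨by linarith [hs.2], by linarith [hs.1]⟩ (by linarith))
    fun t ht => hf _ ⟨by linarith [ht.2], by linarith [ht.1]⟩)

/-- **nested windows**: `S l r` is constant on the next window -/
theorem exists_tower {α : Type*} (S : ℝ → ℝ → ℝ → α) {a b : ℝ} (hab : a < b)
    (h : ∀ l r, a ≤ l → l < r → r ≤ b → Stab (S l r) l r) :
    ∃ l r : ℕ → ℝ, l 0 = a ∧ r 0 = b ∧ StrictMono l ∧ StrictAnti r ∧ (∀ i j, l i < r j) ∧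
      ∀ n, ∀ t ∈ Icc (l (n + 1)) (r (n + 1)), S (l n) (r n) t = S (l n) (r n) (l (n + 1)) := by
  have key : ∀ p : {p : ℝ × ℝ // a ≤ p.1 ∧ p.1 < p.2 ∧ p.2 ≤ b},
      ∃ q : {p : ℝ × ℝ // a ≤ p.1 ∧ p.1 < p.2 ∧ p.2 ≤ b}, p.1.1 < q.1.1 ∧ q.1.2 < p.1.2 ∧
        ∀ t ∈ Icc q.1.1 q.1.2, S p.1.1 p.1.2 t = S p.1.1 p.1.2 q.1.1 := by
    rintro ⟨⟨l, r⟩, h1, h2, h3⟩
    simp only at h1 h2 h3
    obtain ⟨u, v, a1, a2, a3, a4⟩ := h l r h1 h2 h3 ((2 * l + r) / 3) ((l + 2 * r) / 3)
      (by linarith) (by linarith) (by linarith)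
    exact ⟨⟨(u, v), by simp only; linarith, a2, by simp only; linarith⟩, by simp only; linarith,
      by simp only; linarith, a4⟩
  choose f h1 h2 h3 using key
  let p : ℕ → {p : ℝ × ℝ // a ≤ p.1 ∧ p.1 < p.2 ∧ p.2 ≤ b} := fun n =>
    f^[n] ⟨(a, b), le_rfl, hab, le_rfl⟩
  have hp : ∀ n, p (n + 1) = f (p n) := fun n => Function.iterate_succ_apply' f n _
  have m1 : StrictMono fun n => (p n).1.1 := strictMono_nat_of_lt_succ fun n => by
    simp only [hp]; exact h1 _
  have m2 : StrictAnti fun n => (p n).1.2 := strictAnti_nat_of_succ_lt fun n => by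
    simp only [hp]; exact h2 _
  refine ⟨fun n => (p n).1.1, fun n => (p n).1.2, rfl, rfl, m1, m2, fun i j => ?_, fun n t ht => ?_⟩
  · exact (m1.monotone (le_max_left i j)).trans_lt
      ((p (max i j)).2.2.1.trans_le (m2.antitone (le_max_right i j)))
  · simp only [hp] at ht ⊢
    exact h3 _ t ht

end Crest.Agent.N255.Wn
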