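import Crest.Agent.N255.Wn.Db
import Crest.Agent.N255.Wi.All

/-!
# Row 255 (helper46): q-tameness of windows and sides from tameness of the far parts
-/

set_option autoImplicit false
open Set Filter Topology

noncomputable section

namespace Crest.Agent.N255.Wn

open Crest.Agent.N255.Tp Crest.Agent.N255.Wi

variable {X : Type} [TopologicalSpace X] {k : Type} [Field k] {n : ℕ} {U V W : Set X}

theorem ev_ex' {M : Type} [AddCommGroup M] [Module k M] {P : Sb X} : ∀ {n} {φ : Co M n X},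
    φ ∈ P.Ex k M n → ∀ {c : Ch k n X}, c ∈ P.ch k n → c ∈ cyc k X n → ev k φ c = 0
  | 0, _, h, _, hc, _ => Sb.ev_eq_zero h hc
  | _ + 1, _, h, _, hc, h0 => ev_ex h hc h0

/-- converse of `fr_dual` -/
theorem fr_hom_of_coh {P Q : Sb X} (h : FR (Q.Z k k n) (P.Ex k k n)) :
    FR (P.ch k n ⊓ cyc k X n) (Q.B k n) :=
  h.pairing (evL k n X).flip (fun _ hu _ hb => ev_ex' hb hu.1 hu.2)
    fun u _ h => Det.mem_B Q u h

theorem fr_coh_of_hom {P Q : Sb X} (h : FR (P.ch k n ⊓ cyc k X n) (Q.B k n)) :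
    FR (Q.Z k k n) (P.Ex k k n) := fr_dual uctS_holds n h

/-- cycles are homologous to small cycles -/
theorem cyc_le_sm {𝒰 : Set (Set X)} (ho : ∀ Y ∈ 𝒰, IsOpen Y) (hc : U ⊆ ⋃₀ 𝒰) :
    ∀ {n}, (On U).ch k n ⊓ cyc k X n ≤ (((On U).inf (Sm 𝒰)).ch k n ⊓ cyc k X n) ⊔ (On U).B k n
  | 0 => fun c h => Submodule.mem_sup_left ⟨Sml.rho_inf k ho hc h.1, trivial⟩
  | n + 1 => fun c h => by
    have h0 : bd k c = 0 := h.2
    refine Submodule.mem_sup.2 ⟨Sml.rho k 𝒰 _ c, ⟨Sml.rho_inf k ho hc h.1, ?_⟩, _,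
      Sb.bd_mem_B (Sml.DD_mem k 𝒰 U h.1), by rw [Sml.rho_succ, h0, map_zero]; abel⟩
    change bd k _ = 0
    rw [Sml.bd_rho, h0, map_zero]

theorem fr_of_sm {𝒰 : Set (Set X)} (ho : ∀ Y ∈ 𝒰, IsOpen Y) (hc : U ⊆ ⋃₀ 𝒰) (hUV : U ⊆ V)
    (h : FR (((On U).inf (Sm 𝒰)).ch k n ⊓ cyc k X n) ((On V).B k n)) :
    FR ((On U).ch k n ⊓ cyc k X n) ((On V).B k n) :=
  (h.sup (FR.of_le (B_mono hUV))).mono (cyc_le_sm ho hc) le_rfl

/-- a cocycle of `U` which is exact on small simplices is exact -/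
theorem ex_of_sm {M : Type} [AddCommGroup M] [Module k M] {𝒰 : Set (Set X)}
    (ho : ∀ Y ∈ 𝒰, IsOpen Y) (hc : U ⊆ ⋃₀ 𝒰) {φ : Co M n X} (h : φ ∈ (On U).Z k M n)
    (h' : φ ∈ ((On U).inf (Sm 𝒰)).Ex k M n) : φ ∈ (On U).Ex k M n :=
  Det.ex_of_cyc _ φ fun c h1 h2 => by
    obtain ⟨a, ha, b, hb, rfl⟩ := Submodule.mem_sup.1 (cyc_le_sm ho hc ⟨h1, h2⟩)
    rw [map_add, ev_ex' h' ha.1 ha.2, Sb.ev_B h hb, add_zero]

/-- in an acyclic space, the cycles of a side come from the overlap -/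
theorem side_le (hX : Acy k (univ : Set X) univ) (hU : IsOpen U) (hV : IsOpen V) (h : U ∪ V = univ) :
    (On U).ch k n ⊓ rcyc k X n ≤ ((On (U ∩ V)).ch k n ⊓ rcyc k X n) ⊔ (On U).B k n := fun c hc => by
  obtain ⟨a, ha, b, hb, e⟩ := split_B smChS_holds hU hV (h ▸ hX n ⟨mem_ch_univ c, hc.2⟩)
    (Submodule.mem_sup_left hc.1)
  refine Submodule.mem_sup.2 ⟨bd k b, ⟨?_, bd_mem_rcyc n b⟩, _, Sb.bd_mem_B ha, by rw [e, add_comm]⟩
  rw [ch_inter]
  exact ⟨by simpa [e] using Submodule.sub_mem _ hc.1 (Sb.bd_mem ha), Sb.bd_mem hb⟩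

theorem fr_side (hX : Acy k (univ : Set X) univ) (hU : IsOpen U) (hV : IsOpen V) (h : U ∪ V = univ)
    (hW : U ⊆ W) (hf : FR ((On (U ∩ V)).ch k n ⊓ cyc k X n) ((On W).B k n)) :
    FR ((On U).ch k n ⊓ cyc k X n) ((On W).B k n) :=
  fr_cyc (B := fun n => (On W).B k n) n ((hf.sup (FR.of_le (B_mono hW))).mono
    ((side_le hX hU hV h).trans (sup_le_sup_right (inf_le_inf_left _ (rcyc_le n)) _)) le_rfl)

/-- Mayer–Vietoris for finite rank -/
theorem fr_union {U' V' Y : Set X} (hU : IsOpen U) (hV : IsOpen V) (h1 : U ⊆ U') (h2 : V ⊆ V')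
    (h3 : U ∪ V ⊆ W) (h4 : Y ⊆ U' ∩ V') : ∀ {n}, FR ((On U').ch k n ⊓ cyc k X n) ((On W).B k n) →
    FR ((On V').ch k n ⊓ cyc k X n) ((On W).B k n) →
    (∀ m, m + 1 = n → FR ((On (U ∩ V)).ch k m ⊓ cyc k X m) ((On Y).B k m)) →
    FR ((On (U ∪ V)).ch k n ⊓ cyc k X n) ((On W).B k n)
  | 0, f1, f2, _ => (f1.sup f2).mono (by
      rw [ch_zero_union]
      exact inf_le_left.trans (sup_le_sup (le_inf (ch_mono h1) le_top) (le_inf (ch_mono h2) le_top)))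
      le_rfl
  | n + 1, f1, f2, f3 => by
    refine mv_step (bd k) ((On U).ch k _) ((On V).ch k _) _ _ ((On Y).ch k _) _ _ _ (ch_mono h1)
      (ch_mono h2) (ch_mono (h4.trans inter_subset_left)) (ch_mono (h4.trans inter_subset_right)) ?_
      (f3 n rfl) f1 f2 fun z hz => ?_
    · refine le_inf ?_ (inf_le_left.trans Sb.B_le_cyc)
      rw [ch_inter]
      exact inf_le_inf Sb.B_le_ch Sb.B_le_ch
    · have h0 : bd k z = 0 := hz.2
      obtain ⟨a, ha, b, hb, e⟩ := split_ch smChS_holds hU hV hz.1 (h0 ▸ Submodule.zero_mem _)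
      refine ⟨a, ha, b, hb, ?_, B_mono h3 e⟩
      have : bd k (z - (a + b)) = 0 := Sb.B_le_cyc e
      rwa [map_sub, h0, zero_sub, neg_eq_zero] at this

/-- **tameness from the far part**: `P'' ⊆ Q'' ⊆ P' ⊆ Q' ⊆ P`, bounded parts of `Q'` are compact -/
theorem tame_of_far [T2Space X] (d : ℕ) [ChartedSpace (EE d) X] (r : C(X, ℝ)) {P P' P'' Q' Q'' : Set X}
    (o : IsOpen P) (o' : IsOpen P') (o'' : IsOpen P'') (c'' : IsClosed Q'') (h1 : P'' ⊆ Q'')
    (h2 : Q'' ⊆ P') (h3 : P' ⊆ Q') (h4 : Q' ⊆ P) (hc : ∀ R, IsCompact (Q' ∩ {x | r x ≤ R})) {R : ℝ}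
    (hf : FR ((On (P' ∩ {x | R < r x})).ch k n ⊓ cyc k X n) ((On P).B k n)) :
    FR ((On P'').ch k n ⊓ cyc k X n) ((On P).B k n) := by
  have og : ∀ a, IsOpen {x | a < r x} := fun a => isOpen_lt continuous_const r.continuous
  have ol : ∀ a, IsOpen {x | r x < a} := fun a => isOpen_lt r.continuous continuous_const
  have e : P'' = P'' ∩ {x | R + 1 < r x} ∪ P'' ∩ {x | r x < R + 2} := by
    rw [← inter_union_distrib_left]
    refine (inter_eq_left.2 fun x _ => ?_).symm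
    by_cases h : R + 1 < r x
    exacts [Or.inl h, Or.inr (show r x < R + 2 by linarith [not_lt.1 h])]
  rw [e]
  refine fr_union (U' := P' ∩ {x | R < r x}) (V' := Q' ∩ {x | r x ≤ R + 3})
    (Y := P' ∩ ({x | R < r x} ∩ {x | r x < R + 3})) (o''.inter (og _)) (o''.inter (ol _))
    (fun x h => ⟨h2 (h1 h.1), show R < r x by linarith [show R + 1 < r x from h.2]⟩)
    (fun x h => ⟨h3 (h2 (h1 h.1)), show r x ≤ R + 3 by linarith [show r x < R + 2 from h.2]⟩)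
    (e ▸ h1.trans (h2.trans (h3.trans h4))) (fun x h => ⟨⟨h.1, h.2.1⟩, h3 h.1, (show r x < R + 3 from h.2.2).le⟩) hf
    (wilder_fr smChS_holds cellS_holds d n (hc _) o (inter_subset_left.trans h4)) fun m _ => ?_
  have hK : IsCompact (Q'' ∩ ({x | R + 1 ≤ r x} ∩ {x | r x ≤ R + 2})) :=
    (hc (R + 2)).of_isClosed_subset (c''.inter ((isClosed_le continuous_const r.continuous).inter
      (isClosed_le r.continuous continuous_const))) fun x h => ⟨h3 (h2 h.1), h.2.2⟩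
  exact (wilder_fr smChS_holds cellS_holds d m hK (o'.inter ((og _).inter (ol _))) fun x h =>
    ⟨h2 h.1, show R < r x by linarith [show R + 1 ≤ r x from h.2.1],
      show r x < R + 3 by linarith [show r x ≤ R + 2 from h.2.2]⟩).mono
    (inf_le_inf_right _ (ch_mono fun x h => ⟨h1 h.1.1, (show R + 1 < r x from h.1.2).le,
      (show r x < R + 2 from h.2.2).le⟩)) le_rfl

/-- Mayer–Vietoris in an acyclic space: cocycles of the overlap are sums of cocycles of the sides -/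
theorem mv_coh {M : Type} [AddCommGroup M] [Module k M] (hX : Acy k (univ : Set X) univ)
    (hU : IsOpen U) (hV : IsOpen V) (h : U ∪ V = univ) {φ : Co M (n + 1) X}
    (hφ : φ ∈ (On (U ∩ V)).Z k M (n + 1)) : ∃ a ∈ (On U).Z k M (n + 1), ∃ b ∈ (On V).Z k M (n + 1),
      φ - (a + b) ∈ (On (U ∩ V)).van k M (n + 1) := by
  have ho := open_pair hU hV
  have hc : univ ⊆ ⋃₀ {U, V} := by simp [h]
  set ω := (On U).res (cob k φ) with hω
  have o1 : ω - cob k φ ∈ (On U).van k M _ := by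
    simpa using Submodule.neg_mem _ (Sb.sub_res (k := k) (P := On U) (cob k φ))
  have o2 : ω ∈ (On V).van k M _ := Sb.res_mem (by rw [← On_inter]; exact hφ)
  have c1 : cob k ω ∈ (Sm {U, V}).van k M _ := by
    rw [Sm_pair, Sb.van_sup]
    exact ⟨by simpa using Sb.cob_mem o1, Sb.cob_mem o2⟩
  obtain ⟨ψ, hψ⟩ := Sb.mem_Ex.1 (Det.ex_of_cyc (On univ) (hon {U, V} k ω) fun c h1 h2 =>
    Sb.ev_B (Sb.mem_Z.2 (by rw [cob_hon, hon_zero ho hc c1]; exact Submodule.zero_mem _))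
      (hX (n + 1 + 1) ⟨h1, h2⟩))
  have e : cob k ψ - ω ∈ (Sm {U, V}).van k M _ := by
    rw [← sub_eq_zero.1 (eq_zero_of_van_univ hψ)]; exact hon_sm ω
  rw [Sm_pair, Sb.van_sup] at e
  refine ⟨φ - ψ, Sb.mem_Z.2 ?_, ψ, Sb.mem_Z.2 ?_, by simp⟩
  · simpa using Submodule.neg_mem _ (Submodule.add_mem _ e.1 o1)
  · simpa using Submodule.add_mem _ e.2 o2

end Crest.Agent.N255.Wn

end
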