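import Crest.Agent.N255.Wn.Sp
import Crest.Agent.N255.Or.Two
import Crest.Agent.N255.Le.Phi

/-!
# Row 255 (helper46): detection and death of periods for cochains that are closed zone by zone
-/

set_option autoImplicit false
open Set

noncomputable section

namespace Crest.Agent.N255.Wn

open Tp

variable {X : Type} [TopologicalSpace X] {k : Type} [Field k] {n i j d : ℕ} {𝒞 𝒵 : Set (Set X)}

/-- simplices that are small and lie in some zone -/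
abbrev ZB (𝒞 𝒵 : Set (Set X)) : Sb X := (Sm 𝒵).inf (Sm 𝒞)

theorem SB_le_ZB {U V : Set X} (hU : U ∈ 𝒵) (h : V ⊆ U) : (SB 𝒞 V).Le (ZB 𝒞 𝒵) :=
  fun _ _ hσ => ⟨⟨U, hU, hσ.1.trans h⟩, hσ.2⟩

theorem ZB_mono {𝒵' : Set (Set X)} (h : 𝒵' ⊆ 𝒵) : (ZB 𝒞 𝒵').Le (ZB 𝒞 𝒵) :=
  fun _ _ ⟨⟨U, hU, a⟩, b⟩ => ⟨⟨U, h hU, a⟩, b⟩

theorem per_neg_r {M : Type} [AddCommGroup M] [Module k M] (h : Co k i X) (f : Co M j X) (y : Ch k n X) :
    per n h f (-y) = -per n h f y := map_neg _ _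

/-- the period only sees small simplices of the zones -/
theorem per_ZB {M : Type} [AddCommGroup M] [Module k M] (h : Co k i X) {f f' : Co M j X}
    (e : f - f' ∈ (ZB 𝒞 𝒵).van k M j) {y : Ch k n X} (hy : y ∈ (ZB 𝒞 𝒵).ch k n) :
    per n h f y = per n h f' y := by
  rw [per_eq, per_eq]
  rw [ZB, ← Le.sm_rf] at e hy
  exact Sb.ev_congr e (D_sm cD' h hy)

variable (ho : ∀ C ∈ 𝒞, IsOpen C) (hc : univ ⊆ ⋃₀ 𝒞) (oz : ∀ U ∈ 𝒵, IsOpen U)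
include ho hc oz

/-- an honest representative -/
theorem exists_hon {W F : Set X} (hW : W ⊆ ⋃₀ 𝒵) (hF : F ⊆ W) {u : Co k n X} (f1 : u ∈ (ZB 𝒞 𝒵).Z k k n)
    (f2 : u ∈ (SB 𝒞 F).van k k n) : ∃ v ∈ (On W).Z k k n, v ∈ (On F).van k k n ∧
      v - u ∈ (ZB 𝒞 𝒵).van k k n := by
  have o : ∀ U ∈ image2 (· ∩ ·) 𝒵 𝒞, IsOpen U := by
    rintro _ ⟨U, hU, C, hC, rfl⟩; exact (oz U hU).inter (ho C hC)
  have c : W ⊆ ⋃₀ image2 (· ∩ ·) 𝒵 𝒞 := fun x hx => by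
    obtain ⟨U, hU, a⟩ := hW hx
    obtain ⟨C, hC, b⟩ := hc (mem_univ x)
    exact ⟨_, ⟨U, hU, C, hC, rfl⟩, a, b⟩
  refine ⟨exs k (image2 (· ∩ ·) 𝒵 𝒞) u, exs_Z o c ?_, exs_van_of_sm o (hF.trans c) ?_, ?_⟩
  · rw [Le.sm_rf]; exact Sb.Z_mono Sb.inf_le_right f1
  · rw [Le.sm_rf]; exact fun σ h => f2 σ ⟨h.1, h.2.2⟩
  · rw [ZB, ← Le.sm_rf]; exact exs_sub

variable [T2Space X] {O : Ori k (d + 1) X} {s r : C(X, ℝ)} {a a' a₁ b₁ b' b p q R : ℝ}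

/-- **DIE for zones**: a class that is closed on the window and exact on a subwindow has period zero -/
theorem die_zones (hn : i + j = d) (h1 : a ≤ a') (h2 : a' < b') (h3 : b' ≤ b)
    (hK : IsCompact (box s r a b R)) (cz : win s a b ⊆ ⋃₀ 𝒵) {u : Co k j X}
    (f1 : u ∈ (ZB 𝒞 𝒵).Z k k j) (f2 : u ∈ (SB 𝒞 (fw s r a b R)).van k k j) {y : Ch k (d + 1) X}
    (hw : Wr O 𝒞 s r a b R y) (hy : y ∈ (ZB 𝒞 𝒵).ch k (d + 1)) {x : Co k (i + 1) X}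
    (x1 : x ∈ (SB 𝒞 (win s a b)).Z k k (i + 1)) (x2 : x ∈ (SB 𝒞 (win s a' b')).Ex k k (i + 1)) :
    per (d + 1) x u y = 0 := by
  obtain ⟨v, v1, v2, v3⟩ := exists_hon ho hc oz cz fw_le f1 f2
  obtain ⟨y', s', w'⟩ := exists_wr ho hc O h2
    (hK.of_isClosed_subset isClosed_box (box_mono h1 h3 le_rfl))
  have e1 := move ho hc (by omega : i + 1 + j = d + 1) ⊥ (fun σ hσ => v1 σ hσ.1) (fun σ hσ => v2 σ hσ.1)
    hw (Sb.ch_mono Sb.inf_le_right hy) x1 (w'.mono ho hc h1 h3 le_rfl hK) s'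
  have e2 := die ho hc ⊥ (f := v) (fun σ hσ => v1 σ (hσ.1.trans (win_mono h1 h3)))
    (fun σ hσ => v2 σ (hσ.1.trans (fw_mono h1 h3 le_rfl))) w' s' hn x2
  rw [Submodule.mem_bot] at e1 e2
  rw [← per_ZB x v3 hy, sub_eq_zero.1 e1, e2]

variable [ChartedSpace (EE (d + 1 + 1)) X] (hO : O.ND) (hX : Acy k (univ : Set X) univ)
  (hij : i + 1 + j = d)
include hO hX hij

/-- **DET for zones** -/
theorem det_zones (h1 : a < a') (h2 : a' ≤ a₁) (h3 : a₁ ≤ b₁) (h4 : b₁ ≤ b') (h5 : b' < b)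
    (hp : a' ≤ p) (hp' : p ≤ b) (hq : a ≤ q) (hq' : q ≤ b') (hK : IsCompact (box s r a b R))
    (cz : win s a b ⊆ ⋃₀ 𝒵) {HL HR : Set (Co k (i + 1) X)}
    (zl : ∀ x ∈ HL, x ∈ (On (win s a p)).Z k k (i + 1)) (zr : ∀ x ∈ HR, x ∈ (On (win s q b)).Z k k (i + 1))
    (wl : (On (lo s a₁)).Z k k (i + 1) ≤ Submodule.span k HL ⊔ (On (lo s a')).Ex k k (i + 1))
    (wr : (On (hi s b₁)).Z k k (i + 1) ≤ Submodule.span k HR ⊔ (On (hi s b')).Ex k k (i + 1))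
    {y y' : Ch k (d + 1) X} (hw : Wr O 𝒞 s r a p R y) (hy : y ∈ (ZB 𝒞 𝒵).ch k (d + 1))
    (hw' : Wr O 𝒞 s r q b R y') (hy' : y' ∈ (ZB 𝒞 𝒵).ch k (d + 1)) {u : Co k (j + 1) X}
    (f1 : u ∈ (ZB 𝒞 𝒵).Z k k (j + 1)) (f2 : u ∈ (SB 𝒞 (fw s r a b R)).van k k (j + 1))
    (hL : ∀ x ∈ HL, per (d + 1) x u y = 0) (hR : ∀ x ∈ HR, per (d + 1) x u y' = 0) :
    ∃ θ ∈ Cc k univ k j, u - cob k θ ∈ ((On (win s a₁ b₁)).inf (ZB 𝒞 𝒵)).van k k (j + 1) := by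
  obtain ⟨v, v1, v2, v3⟩ := exists_hon ho hc oz cz fw_le f1 f2
  obtain ⟨θ, t1, t2⟩ := mem_BP.1 (Or.det_span ho hc hO hX hij h1 h2 h3 h4 h5 hp hp' hq hq' hK
    (Submodule.span_le.2 zl) (Submodule.span_le.2 zr) wl wr hw hw' v1 v2
    (fun x hx => by
      rw [← per_eq, per_ZB x v3 hy]
      exact per_span_mem ⊥ hL hx)
    fun x hx => by
      rw [← per_eq, per_ZB x v3 hy']
      exact per_span_mem ⊥ hR hx)
  refine ⟨θ, t1, ?_⟩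
  simpa using Submodule.sub_mem _ (Sb.van_mono Sb.inf_le_left t2) (Sb.van_mono Sb.inf_le_right v3)

end Crest.Agent.N255.Wn
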